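import Vale.Agent.P092.H899.T1

/-!
P092, Team P, stages 2 and 3, row [P2-TGT] (helper632), part 1: a subspace which is almost
isotropic for a continuous form is near to an isotropic subspace (compactness of the
Grassmannian). Any form, any local field, any dimension.
-/

set_option linter.all false

open Matrix Topology Module Set Filter

namespace Vale.Agent.P092.H632.T2

open Vale.Agent.P092.H100.Gr (Gr Fr sp sp_surj sp_open sp_cont sp_oq fr_val_cont eq_of_le)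
open Vale.Agent.P092.H899.T

section near

variable {k : Type*} [NontriviallyNormedField k] [CompleteSpace k] {ι : Type*} [Fintype ι] {j : ℕ}

/-- the coefficients of a frame are bounded by the vector -/
theorem exists_coef (v : Fr k ι j) :
    ∃ C : ℝ, 0 < C ∧ ∀ c : Fin j → k, ‖c‖ ≤ C * ‖∑ a, c a • v.1 a‖ := by
  obtain ⟨F, hF⟩ : ∃ F : (Fin j → k) →ₗ[k] (ι → k), F = Fintype.linearCombination k v.1 :=
    ⟨_, rfl⟩
  have hFv : ∀ c, F c = ∑ a, c a • v.1 a := fun c => by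
    rw [hF, Fintype.linearCombination_apply]
  have hk : LinearMap.ker F = ⊥ := by
    rw [LinearMap.ker_eq_bot']
    intro c hc
    rw [hFv] at hc
    exact funext fun a => (Fintype.linearIndependent_iff.1 v.2) c hc a
  obtain ⟨K, hK, h⟩ := F.exists_antilipschitzWith hk
  refine ⟨K, hK, fun c => ?_⟩
  have h1 := h.le_mul_dist c 0
  rw [dist_zero_right, map_zero, dist_zero_right, hFv] at h1
  exact h1

/-- vectors of a subspace are approximated in the near subspaces -/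
theorem vec_nhds (L₀ : Gr k ι j) {w : ι → k} (hw : w ∈ L₀.1) {r : ℝ} (hr : 0 < r) :
    ∀ᶠ L in 𝓝 L₀, ∃ w' ∈ L.1, ‖w' - w‖ < r := by
  obtain ⟨v, hv⟩ := sp_surj L₀
  have hwv : w ∈ Submodule.span k (range v.1) := by
    rw [← hv] at hw
    exact hw
  obtain ⟨c, hc⟩ := (Submodule.mem_span_range_iff_exists_fun k).1 hwv
  obtain ⟨Φ, hΦ⟩ : ∃ Φ : Fr k ι j → (ι → k), Φ = fun v' => ∑ i, c i • v'.1 i := ⟨_, rfl⟩
  have hΦc : Continuous Φ := by
    rw [hΦ]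
    refine continuous_finset_sum _ fun i _ => ?_
    exact ((continuous_apply i).comp fr_val_cont).const_smul (c i)
  have hΦv : Φ v = w := by rw [hΦ]; exact hc
  have hmem : ∀ v' : Fr k ι j, Φ v' ∈ (sp v').1 := fun v' => by
    rw [hΦ]
    exact Submodule.sum_mem _ fun i _ => Submodule.smul_mem _ _ (Submodule.subset_span ⟨i, rfl⟩)
  have hU : IsOpen (Φ ⁻¹' Metric.ball w r) := Metric.isOpen_ball.preimage hΦc
  have h2 : sp '' (Φ ⁻¹' Metric.ball w r) ∈ 𝓝 L₀ :=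
    (sp_open _ hU).mem_nhds ⟨v, by
      rw [mem_preimage, hΦv]
      exact Metric.mem_ball_self hr, hv⟩
  filter_upwards [h2] with L hL
  obtain ⟨v', hv', rfl⟩ := hL
  refine ⟨Φ v', hmem v', ?_⟩
  have h3 : Φ v' ∈ Metric.ball w r := hv'
  rw [Metric.mem_ball, dist_eq_norm] at h3
  exact h3

/-- the near subspaces are `δ`-near -/
theorem nr_nhds (L₀ : Gr k ι j) {δ : ℝ} (hδ : 0 < δ) : ∀ᶠ L in 𝓝 L₀, Nr δ L.1 L₀.1 := by
  obtain ⟨v₀, hv₀⟩ := sp_surj L₀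
  obtain ⟨C, hC, hcoef⟩ := exists_coef v₀
  obtain ⟨ρ, hρ0, hρ1, hρ2⟩ : ∃ ρ : ℝ, 0 < ρ ∧ (j : ℝ) * ρ * (2 * C) ≤ δ ∧
      (j : ℝ) * ρ * (2 * C) ≤ 1 := by
    refine ⟨min δ 1 / (((j : ℝ) + 1) * (2 * C)), by positivity, ?_, ?_⟩
    · have h1 : (j : ℝ) * (min δ 1 / (((j : ℝ) + 1) * (2 * C))) * (2 * C) =
          min δ 1 * (j / (j + 1)) := by field_simp
      rw [h1]
      have h2 : (j : ℝ) / (j + 1) ≤ 1 := by
        rw [div_le_one (by positivity)]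
        linarith
      calc min δ 1 * ((j : ℝ) / (j + 1)) ≤ δ * 1 := by
            refine mul_le_mul (min_le_left _ _) h2 (by positivity) hδ.le
        _ = δ := mul_one δ
    · have h1 : (j : ℝ) * (min δ 1 / (((j : ℝ) + 1) * (2 * C))) * (2 * C) =
          min δ 1 * (j / (j + 1)) := by field_simp
      rw [h1]
      have h2 : (j : ℝ) / (j + 1) ≤ 1 := by
        rw [div_le_one (by positivity)]
        linarith
      calc min δ 1 * ((j : ℝ) / (j + 1)) ≤ 1 * 1 := by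
            refine mul_le_mul (min_le_right _ _) h2 (by positivity) zero_le_one
        _ = 1 := mul_one 1
  have hU : IsOpen {v : Fr k ι j | ∀ a, ‖v.1 a - v₀.1 a‖ < ρ} := by
    have e : {v : Fr k ι j | ∀ a, ‖v.1 a - v₀.1 a‖ < ρ} =
        ⋂ a, {v : Fr k ι j | ‖v.1 a - v₀.1 a‖ < ρ} := by
      ext v
      simp only [mem_iInter, mem_setOf_eq]
    rw [e]
    refine isOpen_iInter_of_finite fun a => isOpen_lt ?_ continuous_const
    exact (((continuous_apply a).comp fr_val_cont).sub continuous_const).norm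
  have h2 : sp '' {v : Fr k ι j | ∀ a, ‖v.1 a - v₀.1 a‖ < ρ} ∈ 𝓝 L₀ :=
    (sp_open _ hU).mem_nhds ⟨v₀, fun a => by rw [sub_self, norm_zero]; exact hρ0, hv₀⟩
  filter_upwards [h2] with L hL
  obtain ⟨v, hv, rfl⟩ := hL
  intro w hw
  have hw' : w ∈ Submodule.span k (range v.1) := hw
  obtain ⟨c, hc⟩ := (Submodule.mem_span_range_iff_exists_fun k).1 hw'
  obtain ⟨w', hw'e⟩ : ∃ w', w' = ∑ a, c a • v₀.1 a := ⟨_, rfl⟩
  have hd : ‖w - w'‖ ≤ j * ρ * ‖c‖ := by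
    rw [hw'e, ← hc, ← Finset.sum_sub_distrib]
    calc ‖∑ a, (c a • v.1 a - c a • v₀.1 a)‖ ≤ ∑ _a : Fin j, ρ * ‖c‖ := by
          refine norm_sum_le_of_le _ fun a _ => ?_
          rw [← smul_sub, norm_smul, mul_comm]
          exact mul_le_mul (hv a).le (norm_le_pi_norm c a) (norm_nonneg _) hρ0.le
      _ = j * ρ * ‖c‖ := by simp; ring
  have hcw : ‖c‖ ≤ 2 * C * ‖w‖ := by
    have h3 := hcoef c
    rw [← hw'e] at h3
    have h4 : ‖w'‖ ≤ ‖w‖ + j * ρ * ‖c‖ := by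
      calc ‖w'‖ = ‖w - (w - w')‖ := by rw [sub_sub_cancel]
        _ ≤ ‖w‖ + ‖w - w'‖ := norm_sub_le _ _
        _ ≤ _ := by linarith
    have h5 : ‖c‖ ≤ C * ‖w‖ + C * (j * ρ) * ‖c‖ := by
      calc ‖c‖ ≤ C * ‖w'‖ := h3
        _ ≤ C * (‖w‖ + j * ρ * ‖c‖) := mul_le_mul_of_nonneg_left h4 hC.le
        _ = _ := by ring
    have h6 : C * (j * ρ) ≤ 1 / 2 := by linarith
    have h7 : C * (j * ρ) * ‖c‖ ≤ 1 / 2 * ‖c‖ := mul_le_mul_of_nonneg_right h6 (norm_nonneg _)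
    linarith
  refine ⟨w', ?_, ?_⟩
  · rw [hw'e, ← hv₀]
    exact Submodule.sum_mem _ fun i _ => Submodule.smul_mem _ _ (Submodule.subset_span ⟨i, rfl⟩)
  · refine hd.trans ?_
    have hjρ : (0 : ℝ) ≤ j * ρ := by positivity
    calc (j : ℝ) * ρ * ‖c‖ ≤ j * ρ * (2 * C * ‖w‖) := mul_le_mul_of_nonneg_left hcw hjρ
      _ = (j * ρ * (2 * C)) * ‖w‖ := by ring
      _ ≤ δ * ‖w‖ := mul_le_mul_of_nonneg_right hρ1 (norm_nonneg _)

/-- isotropic subspaces -/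
def Iso (B : (ι → k) → (ι → k) → k) (L : Submodule k (ι → k)) : Prop :=
  ∀ x ∈ L, ∀ y ∈ L, B x y = 0

/-- almost isotropic subspaces -/
def Ais (B : (ι → k) → (ι → k) → k) (η : ℝ) (L : Submodule k (ι → k)) : Prop :=
  ∀ x ∈ L, ∀ y ∈ L, ‖B x y‖ ≤ η * (‖x‖ * ‖y‖)

theorem Ais.mono {B : (ι → k) → (ι → k) → k} {η η' : ℝ} (h : η ≤ η')
    {L : Submodule k (ι → k)} (hL : Ais B η L) : Ais B η' L := fun x hx y hy =>
  (hL x hx y hy).trans (mul_le_mul_of_nonneg_right h (by positivity))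

/-- a subspace which is not isotropic has a neighbourhood without almost isotropic subspaces -/
theorem not_ais {B : (ι → k) → (ι → k) → k} (hB : Continuous fun p : (ι → k) × (ι → k) => B p.1 p.2)
    {L₀ : Gr k ι j} (h : ¬ Iso B L₀.1) : ∃ η : ℝ, 0 < η ∧ ∀ᶠ L in 𝓝 L₀, ¬ Ais B η L.1 := by
  unfold Iso at h
  push Not at h
  obtain ⟨x, hx, y, hy, hxy⟩ := h
  obtain ⟨b, hb⟩ : ∃ b : ℝ, b = ‖B x y‖ / 2 := ⟨_, rfl⟩
  have hb0 : 0 < b := by rw [hb]; have := norm_pos_iff.2 hxy; positivity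
  have hO : IsOpen {p : (ι → k) × (ι → k) | b < ‖B p.1 p.2‖} :=
    isOpen_lt continuous_const hB.norm
  have hm : (x, y) ∈ {p : (ι → k) × (ι → k) | b < ‖B p.1 p.2‖} := by
    change b < ‖B x y‖
    have := norm_pos_iff.2 hxy
    rw [hb]; linarith
  obtain ⟨r, hr, hball⟩ := Metric.isOpen_iff.1 hO (x, y) hm
  refine ⟨b / ((‖x‖ + r) * (‖y‖ + r)), by positivity, ?_⟩
  filter_upwards [vec_nhds L₀ hx hr, vec_nhds L₀ hy hr] with L h1 h2 hA
  obtain ⟨x', hx', dx⟩ := h1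
  obtain ⟨y', hy', dy⟩ := h2
  have h3' : (x', y') ∈ Metric.ball (x, y) r := by
    rw [Metric.mem_ball, Prod.dist_eq, max_lt_iff, dist_eq_norm, dist_eq_norm]
    exact ⟨dx, dy⟩
  have h3 : b < ‖B x' y'‖ := hball h3'
  have n1 : ‖x'‖ ≤ ‖x‖ + r := by
    calc ‖x'‖ = ‖x + (x' - x)‖ := by rw [add_sub_cancel]
      _ ≤ ‖x‖ + ‖x' - x‖ := norm_add_le _ _
      _ ≤ _ := by linarith
  have n2 : ‖y'‖ ≤ ‖y‖ + r := by
    calc ‖y'‖ = ‖y + (y' - y)‖ := by rw [add_sub_cancel]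
      _ ≤ ‖y‖ + ‖y' - y‖ := norm_add_le _ _
      _ ≤ _ := by linarith
  have h4 := hA x' hx' y' hy'
  have h5 : b / ((‖x‖ + r) * (‖y‖ + r)) * (‖x'‖ * ‖y'‖) ≤ b := by
    have p1 : 0 < ‖x‖ + r := by positivity
    have p2 : 0 < ‖y‖ + r := by positivity
    calc b / ((‖x‖ + r) * (‖y‖ + r)) * (‖x'‖ * ‖y'‖) ≤
        b / ((‖x‖ + r) * (‖y‖ + r)) * ((‖x‖ + r) * (‖y‖ + r)) := by gcongr
      _ = b := by field_simp
  linarith

end near

section cpt

variable {k : Type*} [NontriviallyNormedField k] [ProperSpace k] {ι : Type*} [Fintype ι] {j : ℕ}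

/-- **An almost isotropic subspace is near to an isotropic subspace.** -/
theorem exists_near {B : (ι → k) → (ι → k) → k}
    (hB : Continuous fun p : (ι → k) × (ι → k) => B p.1 p.2) (j : ℕ) {δ : ℝ} (hδ : 0 < δ) :
    ∃ η : ℝ, 0 < η ∧ ∀ L : Gr k ι j, Ais B η L.1 → ∃ X : Gr k ι j, Iso B X.1 ∧ Nr δ L.1 X.1 := by
  have key : ∃ η : ℝ, 0 < η ∧ ∀ L ∈ (univ : Set (Gr k ι j)), Ais B η L.1 →
      ∃ X : Gr k ι j, Iso B X.1 ∧ Nr δ L.1 X.1 := by
    refine (isCompact_univ (X := Gr k ι j)).induction_on (p := fun S => ∃ η : ℝ, 0 < η ∧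
      ∀ L ∈ S, Ais B η L.1 → ∃ X : Gr k ι j, Iso B X.1 ∧ Nr δ L.1 X.1) ?_ ?_ ?_ ?_
    · exact ⟨1, one_pos, fun L hL => absurd hL (notMem_empty L)⟩
    · rintro s t hst ⟨η, hη, h⟩
      exact ⟨η, hη, fun L hL => h L (hst hL)⟩
    · rintro s t ⟨η, hη, h⟩ ⟨η', hη', h'⟩
      refine ⟨min η η', lt_min hη hη', fun L hL hA => ?_⟩
      rcases hL with hL | hL
      · exact h L hL (hA.mono (min_le_left _ _))
      · exact h' L hL (hA.mono (min_le_right _ _))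
    · intro L₀ _
      by_cases hI : Iso B L₀.1
      · exact ⟨_, mem_nhdsWithin_of_mem_nhds (nr_nhds L₀ hδ), 1, one_pos,
          fun L hL _ => ⟨L₀, hI, hL⟩⟩
      · obtain ⟨η, hη, h⟩ := not_ais hB hI
        exact ⟨_, mem_nhdsWithin_of_mem_nhds h, η, hη, fun L hL hA => absurd hA hL⟩
  obtain ⟨η, hη, h⟩ := key
  exact ⟨η, hη, fun L => h L (mem_univ L)⟩

/-- without isotropic `j`-spaces no `j`-space is almost isotropic -/
theorem exists_not_ais {B : (ι → k) → (ι → k) → k}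
    (hB : Continuous fun p : (ι → k) × (ι → k) => B p.1 p.2)
    (h0 : ∀ X : Gr k ι j, ¬ Iso B X.1) :
    ∃ η : ℝ, 0 < η ∧ ∀ L : Gr k ι j, ¬ Ais B η L.1 := by
  obtain ⟨η, hη, h⟩ := exists_near hB j one_pos
  refine ⟨η, hη, fun L hL => ?_⟩
  obtain ⟨X, hX, -⟩ := h L hL
  exact h0 X hX

end cpt

end Vale.Agent.P092.H632.T2
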