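import Vale.Agent.P092.H534.CartN
import Vale.Agent.P092.H632.T2.Near

/-!
P092, Team P, stages 2 and 3, row [P2-TGT] (helper632), part 2: the expansion numbers
`xp d z = sup {c | z expands some d-dimensional subspace by c}` of a matrix over a normed field:
quasi-invariance, comparison with every bounded Cartan decomposition.
-/

set_option linter.all false

open Matrix Topology Module Set Filter

namespace Vale.Agent.P092.H632.T2

open Vale.Agent.P092.H100.Gr (Gr Fr sp sp_surj sp_open sp_cont sp_oq fr_val_cont eq_of_le)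
open Vale.Agent.P092.H899.T
open Vale.Agent.P092.H337.NG
open Vale.Agent.P092.H534.GK (Crt)

section col

variable {k : Type*} [Field k] {n : ℕ}

/-- extension of a vector by zero -/
def ext0 (d : ℕ) : (Fin d → k) →ₗ[k] (Fin n → k) where
  toFun c i := if h : (i : ℕ) < d then c ⟨i, h⟩ else 0
  map_add' c c' := by
    funext i
    by_cases h : (i : ℕ) < d <;> simp [h]
  map_smul' a c := by
    funext i
    by_cases h : (i : ℕ) < d <;> simp [h]

theorem ext0_lt {d : ℕ} (c : Fin d → k) {i : Fin n} (h : (i : ℕ) < d) :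
    ext0 d c i = c ⟨i, h⟩ := dif_pos h

theorem ext0_ge {d : ℕ} (c : Fin d → k) {i : Fin n} (h : d ≤ (i : ℕ)) : ext0 d c i = 0 :=
  dif_neg (by omega)

theorem ext0_inj {d : ℕ} (hd : d ≤ n) : Function.Injective (ext0 (k := k) (n := n) d) := by
  intro c c' h
  funext i
  have h1 := congrFun h (Fin.castLE hd i)
  have h2 : ((Fin.castLE hd i : Fin n) : ℕ) < d := i.2
  rw [ext0_lt c h2, ext0_lt c' h2] at h1
  exact h1

/-- the span of the first `d` columns of `U`, if `U' * U = 1` -/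
theorem exists_cols {U U' : Matrix (Fin n) (Fin n) k} (h : U * U' = 1) {d : ℕ} (hd : d ≤ n) :
    ∃ L : Submodule k (Fin n → k), finrank k L = d ∧
      ∀ x, x ∈ L ↔ ∀ i : Fin n, d ≤ (i : ℕ) → (U' *ᵥ x) i = 0 := by
  have h' : U' * U = 1 := mul_eq_one_comm.mp h
  obtain ⟨F, hF⟩ : ∃ F : (Fin d → k) →ₗ[k] (Fin n → k), F = U.mulVecLin ∘ₗ ext0 d := ⟨_, rfl⟩
  have hFc : ∀ c, F c = U *ᵥ ext0 d c := fun c => by rw [hF]; rfl
  have hinj : Function.Injective F := by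
    intro c c' hcc
    rw [hFc, hFc] at hcc
    have h1 := congrArg (fun x => U' *ᵥ x) hcc
    simp only [mulVec_mulVec, h', one_mulVec] at h1
    exact ext0_inj hd h1
  refine ⟨LinearMap.range F, ?_, fun x => ⟨?_, fun hx => ?_⟩⟩
  · rw [LinearMap.finrank_range_of_inj hinj, finrank_fin_fun]
  · rintro ⟨c, rfl⟩ i hi
    rw [hFc, mulVec_mulVec, h', one_mulVec]
    exact ext0_ge c hi
  · refine ⟨fun j => (U' *ᵥ x) ⟨j, by omega⟩, ?_⟩
    have e : ext0 d (fun j : Fin d => (U' *ᵥ x) ⟨j, by omega⟩) = U' *ᵥ x := by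
      funext i
      by_cases hi : (i : ℕ) < d
      · rw [ext0_lt _ hi]
      · rw [ext0_ge _ (by omega), hx i (by omega)]
    rw [hFc, e, mulVec_mulVec, h, one_mulVec]

end col

/-- subspaces of smaller dimension -/
theorem exists_sub' {k E : Type*} [Field k] [AddCommGroup E] [Module k E] {V : Submodule k E}
    {d d' : ℕ} (hd : 0 < d') (hV : finrank k V = d') (h : d ≤ d') :
    ∃ W ≤ V, finrank k W = d := by
  have : Module.Finite k V := Module.finite_of_finrank_pos (by omega)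
  let b : Basis (Fin d') k V := finBasisOfFinrankEq k V hV
  have hb : LinearIndependent k fun i : Fin d => ((b (Fin.castLE h i) : V) : E) := by
    have h1 : LinearIndependent k fun i : Fin d' => ((b i : V) : E) :=
      b.linearIndependent.map' V.subtype (Submodule.ker_subtype V)
    exact h1.comp _ (Fin.castLE_injective h)
  refine ⟨Submodule.span k (range fun i : Fin d => ((b (Fin.castLE h i) : V) : E)), ?_, ?_⟩
  · rw [Submodule.span_le]
    rintro _ ⟨i, rfl⟩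
    exact (b _).2
  · rw [finrank_span_eq_card hb, Fintype.card_fin]

section xp

variable {k : Type*} [NontriviallyNormedField k] {n : ℕ}

theorem Xp.bound {c : ℝ} {d : ℕ} (hd : 1 ≤ d) {z : Matrix (Fin n) (Fin n) k} (h : Xp c d z) :
    c ≤ n * en z := by
  obtain ⟨V, hV, hc⟩ := h
  have hpos : 0 < finrank k V := by omega
  have hnt : Nontrivial V := Module.nontrivial_of_finrank_pos hpos
  obtain ⟨v, hv⟩ := exists_ne (0 : V)
  have hv' : 0 < ‖(v : Fin n → k)‖ := norm_pos_iff.2 fun h0 => hv (Subtype.ext h0)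
  have h1 := hc v.1 v.2
  have h2 := norm_mulVec_le z v.1
  have h3 : c * ‖(v : Fin n → k)‖ ≤ (n * en z) * ‖(v : Fin n → k)‖ := by
    calc _ ≤ _ := h1
      _ ≤ _ := h2
      _ = _ := by ring
  exact le_of_mul_le_mul_right h3 hv'

theorem xp_zero_mem {d : ℕ} (hd : d ≤ n) (z : Matrix (Fin n) (Fin n) k) : Xp 0 d z := by
  obtain ⟨L, hL, -⟩ := exists_cols (U := (1 : Matrix (Fin n) (Fin n) k)) (U' := 1)
    (Matrix.mul_one 1) hd
  exact ⟨L, hL, fun v _ => by rw [zero_mul]; exact norm_nonneg _⟩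

/-- **The expansion numbers.** -/
noncomputable def xp (d : ℕ) (z : Matrix (Fin n) (Fin n) k) : ℝ := sSup {c | Xp c d z}

theorem xp_bdd {d : ℕ} (hd : 1 ≤ d) (z : Matrix (Fin n) (Fin n) k) :
    BddAbove {c | Xp c d z} := ⟨n * en z, fun c hc => Xp.bound hd hc⟩

theorem le_xp {c : ℝ} {d : ℕ} (hd : 1 ≤ d) {z : Matrix (Fin n) (Fin n) k} (h : Xp c d z) :
    c ≤ xp d z := le_csSup (xp_bdd hd z) h

theorem xp_le_of {d : ℕ} (hn : d ≤ n) {z : Matrix (Fin n) (Fin n) k} {C : ℝ}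
    (h : ∀ c, Xp c d z → c ≤ C) : xp d z ≤ C := csSup_le ⟨0, xp_zero_mem hn z⟩ h

theorem xp_nonneg {d : ℕ} (hd : 1 ≤ d) (hn : d ≤ n) (z : Matrix (Fin n) (Fin n) k) :
    0 ≤ xp d z := le_xp hd (xp_zero_mem hn z)

theorem xp_le {d : ℕ} (hd : 1 ≤ d) (hn : d ≤ n) (z : Matrix (Fin n) (Fin n) k) :
    xp d z ≤ n * en z := xp_le_of hn fun c hc => Xp.bound hd hc

theorem xp_half {d : ℕ} (hn : d ≤ n) {z : Matrix (Fin n) (Fin n) k} (h : 0 < xp d z) :
    Xp (xp d z / 2) d z := by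
  obtain ⟨c, hc, hlt⟩ := exists_lt_of_lt_csSup (s := {c | Xp c d z}) ⟨0, xp_zero_mem hn z⟩
    (show xp d z / 2 < sSup {c | Xp c d z} from half_lt_self h)
  exact Xp.mono hlt.le hc

theorem xp_pos {d : ℕ} (hd : 1 ≤ d) (hn : d ≤ n) (z : SLn k n) : 0 < xp d z.1 := by
  have hn0 : (0 : ℝ) < n := by exact_mod_cast (by omega : 0 < n)
  have : NeZero n := ⟨by omega⟩
  have hp := en_pos (by omega) z⁻¹
  obtain ⟨L, hL, -⟩ := exists_cols (U := (1 : Matrix (Fin n) (Fin n) k)) (U' := 1)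
    (Matrix.mul_one 1) hn
  refine lt_of_lt_of_le (show 0 < 1 / (n * en (z⁻¹).1) by positivity)
    (le_xp hd ⟨L, hL, fun v _ => ?_⟩)
  have h1 : v = (z⁻¹).1 *ᵥ (z.1 *ᵥ v) := by rw [mulVec_mulVec, coe_inv_mul, one_mulVec]
  have h2 := norm_mulVec_le (z⁻¹).1 (z.1 *ᵥ v)
  rw [← h1] at h2
  rw [one_div, inv_mul_le_iff₀ (by positivity)]
  calc ‖v‖ ≤ n * (en (z⁻¹).1 * ‖z.1 *ᵥ v‖) := h2
    _ = _ := by ring

theorem xp_anti {d d' : ℕ} (hd : 1 ≤ d) (hdd : d ≤ d') (hn : d' ≤ n)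
    (z : Matrix (Fin n) (Fin n) k) : xp d' z ≤ xp d z := by
  refine xp_le_of hn fun c hc => le_xp hd ?_
  obtain ⟨V, hV, h⟩ := hc
  obtain ⟨W, hW, hWd⟩ := exists_sub' (by omega) hV hdd
  exact ⟨W, hWd, fun v hv => h v (hW hv)⟩

/-- Transport by elements of the group, modulo scalars. -/
theorem Xp.eqv {c : ℝ} (hc : 0 ≤ c) {d : ℕ} (hn : 0 < n) {x z s u : SLn k n}
    (hz : Eqv z (s * x * u)) (hX : Xp c d x.1) :
    Xp (c / (n ^ 2 * (en (s⁻¹).1 * en (u⁻¹).1))) d z.1 := by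
  have : NeZero n := ⟨by omega⟩
  obtain ⟨V, hV, h⟩ := hX
  obtain ⟨a, ha⟩ := hz
  have ha1 := scalar_norm ha
  have ps := en_pos (by omega) s⁻¹
  have pu := en_pos (by omega) u⁻¹
  have hn0 : (0 : ℝ) < n := by exact_mod_cast hn
  obtain ⟨f, hf⟩ : ∃ f : (Fin n → k) →ₗ[k] (Fin n → k), f = ((u⁻¹).1).mulVecLin := ⟨_, rfl⟩
  have hfv : ∀ v, f v = (u⁻¹).1 *ᵥ v := fun v => by rw [hf]; rfl
  have hinj : Function.Injective f := by
    intro v w hvw
    rw [hfv, hfv] at hvw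
    have h1 := congrArg (fun y => u.1 *ᵥ y) hvw
    simp only [mulVec_mulVec, coe_mul_inv, one_mulVec] at h1
    exact h1
  refine ⟨V.map f, (Submodule.equivMapOfInjective f hinj V).symm.finrank_eq.trans hV, ?_⟩
  rintro _ ⟨v, hv, rfl⟩
  have h1 := h v hv
  have h2 : ‖f v‖ ≤ n * (en (u⁻¹).1 * ‖v‖) := by
    rw [hfv]
    exact norm_mulVec_le _ _
  have h3 : z.1 *ᵥ f v = a • (s.1 *ᵥ (x.1 *ᵥ v)) := by
    rw [hfv, ha, smul_mulVec, coe_mul', coe_mul', mulVec_mulVec, mulVec_mulVec,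
      Matrix.mul_assoc (s.1 * x.1), coe_mul_inv, Matrix.mul_one]
  have h4 : ‖x.1 *ᵥ v‖ ≤ n * (en (s⁻¹).1 * ‖z.1 *ᵥ f v‖) := by
    have e : x.1 *ᵥ v = (s⁻¹).1 *ᵥ (s.1 *ᵥ (x.1 *ᵥ v)) := by
      rw [mulVec_mulVec, coe_inv_mul, one_mulVec]
    rw [h3, norm_smul, ha1, one_mul]
    have h5 := norm_mulVec_le (s⁻¹).1 (s.1 *ᵥ (x.1 *ᵥ v))
    rw [← e] at h5
    exact h5
  rw [div_mul_eq_mul_div, div_le_iff₀ (by positivity)]
  calc c * ‖f v‖ ≤ c * (n * (en (u⁻¹).1 * ‖v‖)) := mul_le_mul_of_nonneg_left h2 hc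
    _ = (n * en (u⁻¹).1) * (c * ‖v‖) := by ring
    _ ≤ (n * en (u⁻¹).1) * (n * (en (s⁻¹).1 * ‖z.1 *ᵥ f v‖)) :=
        mul_le_mul_of_nonneg_left (h1.trans h4) (by positivity)
    _ = _ := by ring

/-- Quasi-invariance. -/
theorem xp_eqv {d : ℕ} (hd : 1 ≤ d) (hn : d ≤ n) {x z s u : SLn k n}
    (hz : Eqv z (s * x * u)) :
    xp d x.1 ≤ (n ^ 2 * (en (s⁻¹).1 * en (u⁻¹).1)) * xp d z.1 := by
  have ps := en_pos (by omega) s⁻¹
  have pu := en_pos (by omega) u⁻¹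
  have hn0 : (0 : ℝ) < n := by exact_mod_cast (by omega : 0 < n)
  have hz0 := xp_pos hd hn z
  refine xp_le_of hn fun c hc => ?_
  rcases le_or_gt 0 c with h0 | h0
  · have h1 := le_xp hd (Xp.eqv h0 (by omega) hz hc)
    rw [div_le_iff₀ (by positivity)] at h1
    linarith
  · have : 0 ≤ (n ^ 2 * (en (s⁻¹).1 * en (u⁻¹).1)) * xp d z.1 := by positivity
    linarith

/-- Quasi-invariance of `log (xp d)`. -/
theorem log_xp_eqv {d : ℕ} (hd : 1 ≤ d) (hn : d ≤ n) (s u : SLn k n) :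
    ∃ C : ℝ, 0 ≤ C ∧ ∀ x z : SLn k n, Eqv z (s * x * u) →
      |Real.log (xp d z.1) - Real.log (xp d x.1)| ≤ C := by
  have : NeZero n := ⟨by omega⟩
  have ps := en_pos (by omega) s⁻¹
  have pu := en_pos (by omega) u⁻¹
  have ps' := en_pos (by omega) s⁻¹⁻¹
  have pu' := en_pos (by omega) u⁻¹⁻¹
  have hn0 : (0 : ℝ) < n := by exact_mod_cast (by omega : 0 < n)
  refine ⟨|Real.log (n ^ 2 * (en (s⁻¹).1 * en (u⁻¹).1))| +
    |Real.log (n ^ 2 * (en (s⁻¹⁻¹).1 * en (u⁻¹⁻¹).1))|, by positivity, fun x z hz => ?_⟩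
  have hz' : Eqv x (s⁻¹ * z * u⁻¹) := by
    have h1 : Eqv (s⁻¹ * z * u⁻¹) (s⁻¹ * (s * x * u) * u⁻¹) :=
      ((Eqv.refl s⁻¹).mul hz).mul (Eqv.refl u⁻¹)
    have e : s⁻¹ * (s * x * u) * u⁻¹ = x := by group
    rw [e] at h1
    exact h1.symm
  have px := xp_pos hd hn x
  have pz := xp_pos hd hn z
  have h1 := Real.log_le_log px (xp_eqv hd hn hz)
  have h2 := Real.log_le_log pz (xp_eqv hd hn hz')
  rw [Real.log_mul (by positivity) pz.ne'] at h1
  rw [Real.log_mul (by positivity) px.ne'] at h2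
  have k1 := le_abs_self (Real.log (n ^ 2 * (en (s⁻¹).1 * en (u⁻¹).1)))
  have k2 := le_abs_self (Real.log (n ^ 2 * (en (s⁻¹⁻¹).1 * en (u⁻¹⁻¹).1)))
  have k3 := abs_nonneg (Real.log (n ^ 2 * (en (s⁻¹).1 * en (u⁻¹).1)))
  have k4 := abs_nonneg (Real.log (n ^ 2 * (en (s⁻¹⁻¹).1 * en (u⁻¹⁻¹).1)))
  rw [abs_le]
  constructor <;> linarith

/-- Scalars do not change the expansion numbers. -/
theorem xp_of_eqv {d : ℕ} (hn : 0 < n) {x z : SLn k n} (hz : Eqv z x) :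
    xp d z.1 = xp d x.1 := by
  have : NeZero n := ⟨by omega⟩
  obtain ⟨a, ha⟩ := hz
  have ha1 := scalar_norm ha
  unfold xp
  congr 1
  ext c
  have e : ∀ v, ‖z.1 *ᵥ v‖ = ‖x.1 *ᵥ v‖ := fun v => by
    rw [ha, smul_mulVec, norm_smul, ha1, one_mul]
  simp only [mem_setOf_eq, Xp, e]

end xp

/-! ### Comparison with Cartan decompositions -/

section crt

variable {k : Type} [NontriviallyNormedField k] {n : ℕ}

theorem norm_mulVec_le' {U : Matrix (Fin n) (Fin n) k} (hU : ∀ i j, ‖U i j‖ ≤ 1)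
    (v : Fin n → k) : ‖U *ᵥ v‖ ≤ n * ‖v‖ := by
  have h1 := norm_mulVec_le U v
  have h2 : en U ≤ 1 := en_le_of zero_le_one hU
  calc ‖U *ᵥ v‖ ≤ n * (en U * ‖v‖) := h1
    _ ≤ n * (1 * ‖v‖) := by gcongr
    _ = _ := by rw [one_mul]

theorem crt_apply {h : Matrix (Fin n) (Fin n) k} {a : Fin n → k}
    {U U' V V' : Matrix (Fin n) (Fin n) k} (H : Crt h a U U' V V') (v : Fin n → k) :
    h *ᵥ v = U *ᵥ fun i => a i * (V *ᵥ v) i := by
  rw [H.eq, ← mulVec_mulVec, ← mulVec_mulVec]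
  congr 1
  funext i
  rw [mulVec_diagonal]

/-- upper bound -/
theorem xp_le_crt {h : Matrix (Fin n) (Fin n) k} {a : Fin n → k}
    {U U' V V' : Matrix (Fin n) (Fin n) k} (H : Crt h a U U' V V') {d : ℕ} (hd : d + 1 ≤ n) :
    xp (d + 1) h ≤ n ^ 2 * ‖a ⟨d, hd⟩‖ := by
  refine xp_le_of hd fun c hc => ?_
  obtain ⟨L, hL, hc⟩ := hc
  obtain ⟨F, hF⟩ : ∃ F : L →ₗ[k] (Fin d → k), ∀ v i, F v i = (V *ᵥ v.1) ⟨i, by omega⟩ :=
    ⟨{ toFun := fun v i => (V *ᵥ v.1) ⟨i, by omega⟩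
       map_add' := fun v w => by
        funext i
        change (V *ᵥ (v.1 + w.1)) _ = _
        rw [mulVec_add]; rfl
       map_smul' := fun t v => by
        funext i
        change (V *ᵥ (t • v.1)) _ = _
        rw [mulVec_smul]; rfl }, fun _ _ => rfl⟩
  have : Module.Finite k L := inferInstance
  have hk : LinearMap.ker F ≠ ⊥ := by
    refine LinearMap.ker_ne_bot_of_finrank_lt ?_
    rw [finrank_fin_fun, hL]
    exact Nat.lt_succ_self d
  obtain ⟨v, hv, hv0⟩ := Submodule.exists_mem_ne_zero_of_ne_bot hk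
  have hz : ∀ i : Fin n, (i : ℕ) < d → (V *ᵥ v.1) i = 0 := fun i hi => by
    have h1 := congrFun (LinearMap.mem_ker.1 hv) ⟨i, hi⟩
    rw [hF] at h1
    exact h1
  have hv' : 0 < ‖(v : Fin n → k)‖ := norm_pos_iff.2 fun h0 => hv0 (Subtype.ext h0)
  have h1 := hc v.1 v.2
  rw [crt_apply H] at h1
  have h2 := norm_mulVec_le' H.hU fun i => a i * (V *ᵥ v.1) i
  have h3 : ‖fun i => a i * (V *ᵥ v.1) i‖ ≤ ‖a ⟨d, hd⟩‖ * ‖V *ᵥ v.1‖ := by
    rw [pi_norm_le_iff_of_nonneg (by positivity)]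
    intro i
    by_cases hi : (i : ℕ) < d
    · rw [hz i hi, mul_zero, norm_zero]; positivity
    · rw [norm_mul]
      exact mul_le_mul (H.anti (show (⟨d, hd⟩ : Fin n) ≤ i from by
        rw [Fin.le_def]; simp only; omega)) (norm_le_pi_norm _ i) (norm_nonneg _) (norm_nonneg _)
  have h4 := norm_mulVec_le' H.hV v.1
  have hn0 : (0 : ℝ) ≤ n := Nat.cast_nonneg n
  have h5 : c * ‖(v : Fin n → k)‖ ≤ (n ^ 2 * ‖a ⟨d, hd⟩‖) * ‖(v : Fin n → k)‖ := by
    calc _ ≤ n * ‖fun i => a i * (V *ᵥ v.1) i‖ := h1.trans h2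
      _ ≤ n * (‖a ⟨d, hd⟩‖ * (n * ‖(v : Fin n → k)‖)) := by
          refine mul_le_mul_of_nonneg_left (h3.trans ?_) hn0
          exact mul_le_mul_of_nonneg_left h4 (norm_nonneg _)
      _ = _ := by ring
  exact le_of_mul_le_mul_right h5 hv'

/-- the expanded subspace -/
theorem xp_of_crt {h : Matrix (Fin n) (Fin n) k} {a : Fin n → k}
    {U U' V V' : Matrix (Fin n) (Fin n) k} (H : Crt h a U U' V V') {d : ℕ} (hd : d + 1 ≤ n) :
    Xp (‖a ⟨d, hd⟩‖ / n ^ 2) (d + 1) h := by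
  have hn0 : (0 : ℝ) < n := by exact_mod_cast (by omega : 0 < n)
  obtain ⟨L, hL, hm⟩ := exists_cols H.vv' hd
  refine ⟨L, hL, fun v hv => ?_⟩
  have hz := (hm v).1 hv
  have h1 : ‖a ⟨d, hd⟩‖ * ‖V *ᵥ v‖ ≤ ‖fun i => a i * (V *ᵥ v) i‖ := by
    rcases (norm_nonneg (a ⟨d, hd⟩)).eq_or_lt with h0 | h0
    · rw [← h0, zero_mul]; exact norm_nonneg _
    rw [← le_div_iff₀' h0, pi_norm_le_iff_of_nonneg (by positivity)]
    intro i
    rw [le_div_iff₀' h0]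
    by_cases hi : (i : ℕ) < d + 1
    · calc ‖a ⟨d, hd⟩‖ * ‖(V *ᵥ v) i‖ ≤ ‖a i‖ * ‖(V *ᵥ v) i‖ := by
            refine mul_le_mul_of_nonneg_right ?_ (norm_nonneg _)
            exact H.anti (show i ≤ (⟨d, hd⟩ : Fin n) from by rw [Fin.le_def]; simp only; omega)
        _ = ‖a i * (V *ᵥ v) i‖ := (norm_mul _ _).symm
        _ ≤ _ := norm_le_pi_norm (fun i => a i * (V *ᵥ v) i) i
    · rw [hz i (by omega), norm_zero, mul_zero]; exact norm_nonneg _
  have h2 : ‖fun i => a i * (V *ᵥ v) i‖ ≤ n * ‖h *ᵥ v‖ := by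
    have e : (fun i => a i * (V *ᵥ v) i) = U' *ᵥ (h *ᵥ v) := by
      rw [crt_apply H, mulVec_mulVec, H.uu', one_mulVec]
    rw [e]
    exact norm_mulVec_le' H.hU' _
  have h3 : ‖v‖ ≤ n * ‖V *ᵥ v‖ := by
    have e : v = V' *ᵥ (V *ᵥ v) := by rw [mulVec_mulVec, H.vv', one_mulVec]
    calc ‖v‖ = ‖V' *ᵥ (V *ᵥ v)‖ := by rw [← e]
      _ ≤ _ := norm_mulVec_le' H.hV' _
  rw [div_mul_eq_mul_div, div_le_iff₀ (by positivity)]
  calc ‖a ⟨d, hd⟩‖ * ‖v‖ ≤ ‖a ⟨d, hd⟩‖ * (n * ‖V *ᵥ v‖) :=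
        mul_le_mul_of_nonneg_left h3 (norm_nonneg _)
    _ = n * (‖a ⟨d, hd⟩‖ * ‖V *ᵥ v‖) := by ring
    _ ≤ n * (n * ‖h *ᵥ v‖) := mul_le_mul_of_nonneg_left (h1.trans h2) hn0.le
    _ = _ := by ring

/-- **Comparison of `xp` with every bounded Cartan decomposition.** -/
theorem log_xp_crt {h : Matrix (Fin n) (Fin n) k} (hdet : h.det ≠ 0) {a : Fin n → k}
    {U U' V V' : Matrix (Fin n) (Fin n) k} (H : Crt h a U U' V V') {d : ℕ} (hd : d + 1 ≤ n) :
    |Real.log (xp (d + 1) h) - Real.log ‖a ⟨d, hd⟩‖| ≤ 2 * Real.log n := by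
  have hn0 : (0 : ℝ) < n := by exact_mod_cast (by omega : 0 < n)
  have ha := H.pos hdet ⟨d, hd⟩
  have h1 := xp_le_crt H hd
  have h2 := le_xp (by omega) (xp_of_crt H hd)
  have hx : 0 < xp (d + 1) h := lt_of_lt_of_le (by positivity) h2
  have h3 := Real.log_le_log hx h1
  have h4 := Real.log_le_log (by positivity) h2
  rw [Real.log_mul (by positivity) ha.ne', Real.log_pow] at h3
  rw [Real.log_div ha.ne' (by positivity), Real.log_pow] at h4
  push_cast at h3 h4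
  rw [abs_le]
  constructor <;> linarith

end crt

end Vale.Agent.P092.H632.T2
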