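import Vale.Agent.P092.H486.EngB
import Vale.Agent.P092.H899.G1
import Vale.Agent.P092.H632.T2.Exp

/-!
P092, Team P, stages 2 and 3, row [CL-TGT] (helper632): from the existence of attracting places
to the geometry of the engine, abstract form.
-/

set_option linter.all false

open Matrix Topology Module Set Filter

namespace Vale.Agent.P092.H632.T2

open Vale.Agent.P092.H100.Gr (Gr)
open Vale.Agent.P092.H337.NG
open Vale.Agent.P092.H859.CL (BB FF cn)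
open Vale.Agent.P092.H859
open Vale.Agent.P092.H899.G (AtL exists_bp)
open Vale.Agent.P092.H486.Eng (GeoU)

section stab

variable {k : Type} [NontriviallyNormedField k] {n : ℕ} [NeZero n] {Γ Y : Type}
  [Group Γ] [TopologicalSpace Y] [CompactSpace Y] [MulAction Γ Y] {d : ℕ}

/-- The field `stab` of the geometry. -/
theorem stab_field {i : Y → Gr k (Fin n) d} (hi : Continuous i) (hinj : Function.Injective i)
    {q : Γ → SLn k n} (hq : PHom q)
    (hact : ∀ γ y, (i (γ • y)).1 = (i y).1.map (q γ).1.mulVecLin) {G1 G2 : Γ → ℝ} {bp : Γ → Y}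
    (gap : ∀ s u, ∃ C, ∀ x, |G1 (s * x * u) - G1 x| ≤ C ∧ |G2 (s * x * u) - G2 x| ≤ C)
    (hat : ∀ R : ℝ, ∀ δ > 0, ∃ T : ℝ, ∀ γ, G2 γ ≤ R → T ≤ G1 γ →
      AtL δ d (q γ).1 (i (bp γ)).1) (s u : Γ) (f : C(Y, ℝ)) (ε : ℝ) (hε : 0 < ε) (r : ℝ) :
    ∃ T, ∀ x, T ≤ G1 x → G2 x ≤ r → |f (bp (s * x * u)) - f (s • bp x)| ≤ ε := by
  obtain ⟨δ, hδ, h⟩ := H899.G.stab hi hinj f.continuous (coe_inv_mul (q s)) (coe_mul_inv (q u)) hε
  obtain ⟨C, hC⟩ := gap s u
  obtain ⟨T1, hT1⟩ := hat r δ hδ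
  obtain ⟨T2, hT2⟩ := hat (r + C) δ hδ
  refine ⟨max T1 (T2 + C), fun x hx hr => ?_⟩
  obtain ⟨c1, c2⟩ := hC x
  rw [abs_le] at c1 c2
  have a1 := hT1 x hr ((le_max_left _ _).trans hx)
  have a2 := hT2 (s * x * u) (by linarith [c2.2]) (by
    have := (le_max_right T1 (T2 + C)).trans hx
    linarith [c1.1])
  obtain ⟨c, hc⟩ := hq.mul3 s x u
  have hc1 := scalar_norm hc
  have h1 := h (q x).1 (q (s * x * u)).1 c (bp x) (bp (s * x * u)) (s • bp x) hc1
    (by rw [hc, coe_mul', coe_mul']) a1 a2 (hact s (bp x))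
  rw [Real.dist_eq] at h1
  exact h1.le

end stab

section choice

variable {S Y : Type} [Nonempty Y]

/-- The choice of the attracting places. -/
theorem choose_bp (P : ℝ → S → Y → Prop) (hmono : ∀ δ δ' g y, δ ≤ δ' → P δ g y → P δ' g y)
    {G1 G2 : S → ℝ} (hex : ∀ R : ℝ, ∀ δ > 0, ∃ T : ℝ, ∀ g, G2 g ≤ R → T ≤ G1 g → ∃ y, P δ g y) :
    ∃ bp : S → Y, ∀ R : ℝ, ∀ δ > 0, ∃ T : ℝ, ∀ g, G2 g ≤ R → T ≤ G1 g → P δ g (bp g) := by
  obtain ⟨bp, hbp⟩ := exists_bp P hmono G1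
  refine ⟨bp, fun R δ hδ => ?_⟩
  obtain ⟨T, hT⟩ := hex R (δ / 2) (by positivity)
  exact ⟨max T (1 / δ), fun g h1 h2 => hbp δ hδ g ((le_max_right _ _).trans h2)
    (hT g h1 ((le_max_left _ _).trans h2))⟩

end choice

section dom

variable {S Γ Y : Type}

/-- The cones. -/
theorem domCut_of {NA : ℝ → ℝ → Set Y → Set S} (q : Γ → S) {G1 G2 : S → ℝ} {bp : S → Y}
    (h : ∀ r : ℝ, ∃ R : ℝ, ∀ T > 0, ∃ T1 : ℝ, ∀ (A : Set Y) (g : S), G2 g ≤ r → T1 ≤ G1 g →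
      bp g ∈ A → g ∈ NA R T A) :
    CN.DomCut (fun R T A => {γ : Γ | q γ ∈ NA R T A}) (fun γ => G1 (q γ)) (fun γ => G2 (q γ))
      (fun γ => bp (q γ)) := by
  intro r
  obtain ⟨R, hR⟩ := h r
  refine ⟨R, fun T hT => ?_⟩
  obtain ⟨T1, hT1⟩ := hR T hT
  refine ⟨max T1 r, fun A γ hγ => ?_⟩
  obtain ⟨h1, h2⟩ := hγ
  by_cases h3 : G2 (q γ) ≤ r
  · by_cases h4 : T1 ≤ G1 (q γ)
    · left
      exact hT1 A (q γ) h3 h4 h2
    · right; left
      push Not at h4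
      exact ⟨h4.le.trans (le_max_left _ _), h3.trans (le_max_right _ _)⟩
  · right; right
    push Not at h3
    exact ⟨lt_of_lt_of_le h3 h1, h3⟩

end dom

section gau

variable {k : Type} [NontriviallyNormedField k] {n : ℕ}

/-- gauges of matrices: points -/
noncomputable def h1 (z : SLn k n) : ℝ := 2 * Real.log (en z.1) - Real.log (m2 z.1)

/-- gauges of matrices: all but the first gap -/
noncomputable def h1' (z : SLn k n) : ℝ := 2 * Real.log (m2 z.1) - 2 * Real.log (en z.1)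

/-- gauges of matrices: the `r`-th gap -/
noncomputable def hr (r : ℕ) (z : SLn k n) : ℝ := Real.log (xp r z.1)

/-- gauges of matrices: all gaps but the `r`-th -/
noncomputable def hr' (r : ℕ) (z : SLn k n) : ℝ := Real.log (en z.1) - Real.log (xp r z.1)

theorem log_en_h1 (z : SLn k n) : Real.log (en z.1) = h1 z + h1' z / 2 := by
  unfold h1 h1'
  ring

theorem log_en_hr (r : ℕ) (z : SLn k n) : Real.log (en z.1) = hr r z + hr' r z := by
  unfold hr hr'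
  ring

variable {Γ : Type} [Group Γ] {q : Γ → SLn k n}

theorem gap_h1 (hn : 2 ≤ n) (hq : PHom q) (s u : Γ) : ∃ C, ∀ x,
    |h1 (q (s * x * u)) - h1 (q x)| ≤ C ∧ |h1' (q (s * x * u)) - h1' (q x)| ≤ C := by
  have : NeZero n := ⟨by omega⟩
  obtain ⟨C1, hC1⟩ : ∃ C : ℝ, ∀ x : SLn k n,
      |Real.log (en (q s * x * q u).1) - Real.log (en x.1)| ≤ C :=
    ⟨_, fun x => abs_log_en hn (q s) x (q u)⟩
  obtain ⟨C2, hC2⟩ : ∃ C : ℝ, ∀ x : SLn k n,
      |Real.log (m2 (q s * x * q u).1) - Real.log (m2 x.1)| ≤ C :=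
    ⟨_, fun x => abs_log_m2 hn (q s) x (q u)⟩
  refine ⟨2 * C1 + 2 * C2, fun x => ?_⟩
  have e := hq.mul3 s x u
  have a1 := hC1 (q x)
  have a2 := hC2 (q x)
  have p1 : 0 ≤ C1 := (abs_nonneg _).trans a1
  have p2 : 0 ≤ C2 := (abs_nonneg _).trans a2
  rw [abs_le] at a1 a2
  unfold h1 h1'
  rw [e.en_eq, e.m2_eq]
  constructor <;> rw [abs_le] <;> constructor <;> linarith

theorem gap_hr {r : ℕ} (hr1 : 1 ≤ r) (hrn : r ≤ n) (hn : 2 ≤ n) (hq : PHom q) (s u : Γ) :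
    ∃ C, ∀ x, |hr r (q (s * x * u)) - hr r (q x)| ≤ C ∧
      |hr' r (q (s * x * u)) - hr' r (q x)| ≤ C := by
  have : NeZero n := ⟨by omega⟩
  obtain ⟨C1, hC1⟩ : ∃ C : ℝ, ∀ x : SLn k n,
      |Real.log (en (q s * x * q u).1) - Real.log (en x.1)| ≤ C :=
    ⟨_, fun x => abs_log_en hn (q s) x (q u)⟩
  obtain ⟨C2, p2, hC2⟩ := log_xp_eqv hr1 hrn (q s) (q u)
  refine ⟨C1 + C2, fun x => ?_⟩
  have e := hq.mul3 s x u
  have a1 := hC1 (q x)
  have a2 := hC2 (q x) (q (s * x * u)) e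
  have p1 : 0 ≤ C1 := (abs_nonneg _).trans a1
  rw [abs_le] at a1 a2
  unfold hr hr'
  rw [e.en_eq]
  constructor <;> rw [abs_le] <;> constructor <;> linarith

omit [Group Γ] in
theorem fin_h1 (hn : 2 ≤ n) (fin : ∀ C : ℝ, {γ | en (q γ).1 ≤ C}.Finite) (r : ℝ) :
    (FF (fun γ => h1 (q γ)) (fun γ => h1' (q γ)) r).Finite := by
  refine (fin (Real.exp (r + r / 2))).subset fun γ hγ => ?_
  obtain ⟨a1, a2⟩ := hγ
  change h1 (q γ) ≤ r at a1
  change h1' (q γ) ≤ r at a2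
  rw [mem_setOf_eq, ← Real.log_le_iff_le_exp (en_pos (by omega) _), log_en_h1]
  linarith

omit [Group Γ] in
theorem fin_hr (hn : 2 ≤ n) (d : ℕ) (fin : ∀ C : ℝ, {γ | en (q γ).1 ≤ C}.Finite) (r : ℝ) :
    (FF (fun γ => hr d (q γ)) (fun γ => hr' d (q γ)) r).Finite := by
  refine (fin (Real.exp (r + r))).subset fun γ hγ => ?_
  obtain ⟨a1, a2⟩ := hγ
  change hr d (q γ) ≤ r at a1
  change hr' d (q γ) ≤ r at a2
  rw [mem_setOf_eq, ← Real.log_le_iff_le_exp (en_pos (by omega) _), log_en_hr d]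
  linarith

/-- near the wall of points -/
theorem nw1_of (hn : 2 ≤ n) {z : SLn k n} {r : ℝ} (h : h1' z ≤ r) :
    m2 z.1 ≤ Real.exp (r / 2) * en z.1 := by
  have p1 := en_pos (by omega) z
  have p2 := m2_pos hn z
  rw [← Real.log_le_log_iff p2 (by positivity), Real.log_mul (Real.exp_pos _).ne' p1.ne',
    Real.log_exp]
  unfold h1' at h
  linarith

theorem h1'_of (hn : 2 ≤ n) {z : SLn k n} {R : ℝ} (hR : 0 < R) (h : m2 z.1 ≤ R * en z.1) :
    h1' z ≤ 2 * Real.log R := by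
  have p1 := en_pos (by omega) z
  have p2 := m2_pos hn z
  rw [← Real.log_le_log_iff p2 (by positivity), Real.log_mul hR.ne' p1.ne'] at h
  unfold h1'
  linarith

/-- near the wall of the `r`-spaces -/
theorem nwr_of {d : ℕ} (hd : 1 ≤ d) (hdn : d ≤ n) {z : SLn k n} {r : ℝ} (h : hr' d z ≤ r) :
    H899.T.Xp (en z.1 / (2 * Real.exp r)) d z.1 := by
  have : NeZero n := ⟨by omega⟩
  have p1 := en_pos (by omega) z
  have p2 := xp_pos hd hdn z
  have h2 := xp_half hdn p2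
  refine H899.T.Xp.mono ?_ h2
  have h3 : en z.1 ≤ Real.exp r * xp d z.1 := by
    rw [← Real.log_le_log_iff p1 (by positivity), Real.log_mul (Real.exp_pos _).ne' p2.ne',
      Real.log_exp]
    unfold hr' at h
    linarith
  rw [div_le_div_iff₀ (by positivity) two_pos]
  calc en z.1 * 2 ≤ Real.exp r * xp d z.1 * 2 := by linarith
    _ = _ := by ring

theorem hr'_of {d : ℕ} (hd : 1 ≤ d) (hdn : d ≤ n) {z : SLn k n} {R : ℝ} (hR : 0 < R)
    (h : H899.T.Xp (en z.1 / R) d z.1) : hr' d z ≤ Real.log R := by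
  have p1 := en_pos (by omega) z
  have h2 := le_xp hd h
  have h3 := Real.log_le_log (by positivity) h2
  rw [Real.log_div p1.ne' hR.ne'] at h3
  unfold hr'
  linarith

end gau

end Vale.Agent.P092.H632.T2
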