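import Vale.Agent.P092.SN.Defs
import Vale.Agent.P092.H416.CLpt
import Vale.Agent.P092.H632.T2.Exp

/-!
P092, Team P, stages 2 and 3, row [CL-LET] (helper632): the sizes, the near-wall sets and the
gauges of the isometry group of a form, in the column letters of helper416's adapter `rho e`.
-/

set_option linter.all false

open Matrix Topology Module Set Filter
open scoped LinearAlgebra.Projectivization

namespace Vale.Agent.P092.H632.T2

open Vale.Agent.P092.H303 (FormGroup)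
open Vale.Agent.P092.H714.Cl (hf)
open Vale.Agent.P092.H370.Po
open Vale.Agent.P092.H416.CL (cor roc Je rho pt hf_cor hf_rho rho_cor cor_roc roc_cor)
open Vale.Agent.P092.H100.Gr (Gr Fr sp sp_surj sp_open sp_cont sp_oq fr_val_cont eq_of_le)
open Vale.Agent.P092.H899.T (Xp Nr)
open Vale.Agent.P092.H337.NG

section im

variable {n : Type} [Fintype n] [DecidableEq n] {k : Type} [NontriviallyNormedField k] {N j : ℕ}
  {σ : k →+* k} {J : Matrix n n k}

/-- the change of coordinates -/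
def corL (e : n ≃ Fin (N + 1)) : (n → k) ≃ₗ[k] (Fin (N + 1) → k) where
  toFun := cor e
  invFun := roc e
  map_add' _ _ := rfl
  map_smul' _ _ := rfl
  left_inv := roc_cor e
  right_inv := cor_roc e

theorem corL_apply (e : n ≃ Fin (N + 1)) (v : n → k) : corL e v = cor e v := rfl

theorem finrank_corL (e : n ≃ Fin (N + 1)) (X : Submodule k (n → k)) :
    finrank k (X.map (corL (k := k) e : (n → k) →ₗ[k] (Fin (N + 1) → k))) = finrank k X :=
  LinearEquiv.finrank_map_eq (corL e) X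

/-- the Grassmannian in the order of `e` -/
def gre (e : n ≃ Fin (N + 1)) (X : Gr k n j) : Gr k (Fin (N + 1)) j :=
  ⟨X.1.map (corL (k := k) e : (n → k) →ₗ[k] (Fin (N + 1) → k)),
    (finrank_corL e X.1).trans X.2⟩

/-- **the subspace of `Fin (N + 1) → k`** -/
def im (e : n ≃ Fin (N + 1)) (X : SGr σ J j) : Gr k (Fin (N + 1)) j := gre e X.1

theorem mem_gre {e : n ≃ Fin (N + 1)} {X : Gr k n j} {x : Fin (N + 1) → k} :
    x ∈ (gre e X).1 ↔ roc e x ∈ X.1 := by
  constructor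
  · rintro ⟨y, hy, rfl⟩
    change roc e (cor e y) ∈ X.1
    rw [roc_cor]
    exact hy
  · intro h
    exact ⟨roc e x, h, cor_roc e x⟩

theorem mem_im {e : n ≃ Fin (N + 1)} {X : SGr σ J j} {x : Fin (N + 1) → k} :
    x ∈ (im e X).1 ↔ roc e x ∈ X.S := mem_gre

theorem cor_mem_im {e : n ≃ Fin (N + 1)} {X : SGr σ J j} {x : n → k} :
    cor e x ∈ (im e X).1 ↔ x ∈ X.S := by rw [mem_im, roc_cor]

theorem im_inj (e : n ≃ Fin (N + 1)) : Function.Injective (im e : SGr σ J j → _) := by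
  intro X Y h
  refine SGr.ext ?_
  ext x
  rw [← cor_mem_im (e := e), h, cor_mem_im]

theorem im_le {i : ℕ} (e : n ≃ Fin (N + 1)) (X : SGr σ J i) (Y : SGr σ J j) :
    (im e X).1 ≤ (im e Y).1 ↔ Inc X Y := by
  constructor
  · intro h x hx
    exact cor_mem_im.1 (h (cor_mem_im (e := e).2 hx))
  · intro h x hx
    exact mem_im.2 (h (mem_im.1 hx))

/-- isotropy in the order of `e` -/
theorem im_iso (e : n ≃ Fin (N + 1)) (X : SGr σ J j) : Iso (hf σ (Je e J)) (im e X).1 := by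
  intro x hx y hy
  rw [← cor_roc e x, ← cor_roc e y, hf_cor]
  exact X.sing _ (mem_im.1 hx) _ (mem_im.1 hy)

/-- **the range: all isotropic subspaces** -/
theorem exists_im (e : n ≃ Fin (N + 1)) (L : Gr k (Fin (N + 1)) j)
    (h : Iso (hf σ (Je e J)) L.1) : ∃ X : SGr σ J j, im e X = L := by
  obtain ⟨Z, hZ⟩ : ∃ Z : Submodule k (n → k),
      Z = L.1.map ((corL (k := k) e).symm : (Fin (N + 1) → k) →ₗ[k] (n → k)) := ⟨_, rfl⟩
  have hm : ∀ x, x ∈ Z ↔ cor e x ∈ L.1 := by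
    intro x
    rw [hZ]
    constructor
    · rintro ⟨y, hy, rfl⟩
      change cor e (roc e y) ∈ L.1
      rw [cor_roc]
      exact hy
    · intro hx
      exact ⟨cor e x, hx, roc_cor e x⟩
  have hd : finrank k Z = j := by
    rw [hZ]
    exact (LinearEquiv.finrank_map_eq (corL (k := k) e).symm L.1).trans L.2
  have hs : Sing σ J Z := by
    intro x hx y hy
    rw [← hf_cor e]
    exact h _ ((hm x).1 hx) _ ((hm y).1 hy)
  refine ⟨SGr.mk' Z hs hd, ?_⟩
  refine Subtype.ext ?_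
  ext x
  rw [mem_im, SGr.mk'_S, hm, cor_roc]

/-- equivariance -/
theorem im_smul (e : n ≃ Fin (N + 1)) (g : FormGroup σ J) (X : SGr σ J j) :
    (im e (g • X)).1 = (im e X).1.map (rho e σ J g).1.mulVecLin := by
  ext x
  rw [mem_im]
  constructor
  · intro h
    rw [smul_S] at h
    obtain ⟨y, hy, hyx⟩ := mem_act.1 h
    refine ⟨cor e y, cor_mem_im.2 hy, ?_⟩
    rw [mulVecLin_apply, rho_cor, hyx, cor_roc]
  · rintro ⟨y, hy, rfl⟩
    rw [mulVecLin_apply, ← cor_roc e y, rho_cor, roc_cor, smul_S]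
    exact vecMul_mem_act (mem_im.1 hy)

end im

section top

variable {n : Type} [Fintype n] [DecidableEq n] {k : Type} [NontriviallyNormedField k] {N j : ℕ}
  {σ : k →+* k} {J : Matrix n n k}

theorem gre_cont (e : n ≃ Fin (N + 1)) : Continuous (gre e : Gr k n j → _) := by
  obtain ⟨F, hF⟩ : ∃ F : Fr k n j → Fr k (Fin (N + 1)) j, ∀ v a, (F v).1 a = cor e (v.1 a) :=
    ⟨fun v => ⟨fun a => cor e (v.1 a), v.2.map' (corL (k := k) e : (n → k) →ₗ[k] (Fin (N + 1) → k))
      (LinearEquiv.ker _)⟩, fun _ _ => rfl⟩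
  have hFc : Continuous F := by
    refine continuous_induced_rng.2 ?_
    refine continuous_pi fun a => ?_
    have e1 : (fun v : Fr k n j => (F v).1 a) = fun v => cor e (v.1 a) := funext fun v => hF v a
    change Continuous fun v : Fr k n j => (F v).1 a
    rw [e1]
    exact continuous_pi fun i =>
      (continuous_apply (e.symm i)).comp ((continuous_apply a).comp fr_val_cont)
  rw [H100.Gr.sp_quot.continuous_iff]
  have e2 : (gre e : Gr k n j → _) ∘ sp = fun v => sp (F v) := by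
    funext v
    refine Subtype.ext ?_
    change (Submodule.span k (range v.1)).map (corL (k := k) e : (n → k) →ₗ[k] (Fin (N + 1) → k)) =
      Submodule.span k (range (F v).1)
    rw [Submodule.map_span, ← range_comp]
    congr 2
    funext a
    exact (hF v a).symm
  rw [e2]
  exact sp_cont.comp hFc

/-- continuity -/
theorem im_cont (e : n ≃ Fin (N + 1)) : Continuous (im e : SGr σ J j → _) :=
  (gre_cont e).comp SGr.val_cont

end top

section let_

variable {n : Type} [Fintype n] [DecidableEq n] {k : Type} [NontriviallyNormedField k] {N : ℕ}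
  {σ : k →+* k} {J : Matrix n n k}

/-- **The size.** -/
noncomputable def nmC (e : n ≃ Fin (N + 1)) (g : FormGroup σ J) : ℝ := en (rho e σ J g).1

/-- near the wall of points -/
def NW1C (e : n ≃ Fin (N + 1)) (R : ℝ) (g : FormGroup σ J) : Prop :=
  m2 (rho e σ J g).1 ≤ R * en (rho e σ J g).1

/-- near the wall of the `r`-spaces -/
def NWrC (e : n ≃ Fin (N + 1)) (r : ℕ) (R : ℝ) (g : FormGroup σ J) : Prop :=
  Xp (en (rho e σ J g).1 / R) r (rho e σ J g).1

/-- the attracting subspace of `z` is in `A`, up to an error `1/T` -/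
def AttC {j : ℕ} (T : ℝ) (A : Set (Gr k (Fin (N + 1)) j))
    (z : Matrix (Fin (N + 1)) (Fin (N + 1)) k) : Prop :=
  ∃ X ∈ A, ∃ M : Matrix (Fin (N + 1)) (Fin (N + 1)) k, (∀ v, M *ᵥ v ∈ X.1) ∧
    ∀ i l, ‖z i l - M i l‖ ≤ en z / T

/-- **near the wall of points, the attracting point in `A`** -/
def NA1C (e : n ≃ Fin (N + 1)) (R T : ℝ) (A : Set (SGr σ J 1)) : Set (FormGroup σ J) :=
  {g | NW1C e R g ∧ SN.Att T (pt e '' A) (rho e σ J g)}

/-- **near the wall of `r`-spaces, the attracting one in `A`** -/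
def NA2C (e : n ≃ Fin (N + 1)) (r : ℕ) (R T : ℝ) (A : Set (SGr σ J r)) : Set (FormGroup σ J) :=
  {g | NWrC e r R g ∧ AttC T (im e '' A) (rho e σ J g).1}

/-- **the scalars** -/
def ZC (σ : k →+* k) (J : Matrix n n k) : Subgroup (FormGroup σ J) where
  carrier := {z | ∃ c : k, z.1.1 = c • (1 : Matrix n n k)}
  one_mem' := ⟨1, (one_smul k _).symm⟩
  mul_mem' := by
    rintro z z' ⟨c, hc⟩ ⟨d, hd⟩
    refine ⟨c * d, ?_⟩
    change z.1.1 * z'.1.1 = _
    rw [hc, hd, Matrix.smul_mul, Matrix.one_mul, smul_smul]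
  inv_mem' := by
    rintro z ⟨c, hc⟩
    have h1 : z.1.1 * (z.1⁻¹).1 = 1 := congrArg Subtype.val (mul_inv_cancel z.1)
    rw [hc, Matrix.smul_mul, Matrix.one_mul] at h1
    refine ⟨c⁻¹, ?_⟩
    change (z.1⁻¹).1 = _
    by_cases h0 : c = 0
    · rw [h0, zero_smul] at h1
      rw [h0, _root_.inv_zero, zero_smul]
      have h2 : (z.1⁻¹).1 = (z.1⁻¹).1 * 1 := (Matrix.mul_one _).symm
      rw [h2, ← h1, Matrix.mul_zero]
    · rw [← h1, smul_smul, inv_mul_cancel₀ h0, one_smul]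

/-- The point gauges. -/
noncomputable def g1 (e : n ≃ Fin (N + 1)) (g : FormGroup σ J) : ℝ :=
  2 * Real.log (en (rho e σ J g).1) - Real.log (m2 (rho e σ J g).1)

/-- all the gaps but the first -/
noncomputable def g1' (e : n ≃ Fin (N + 1)) (g : FormGroup σ J) : ℝ :=
  2 * Real.log (m2 (rho e σ J g).1) - 2 * Real.log (en (rho e σ J g).1)

/-- The gauge of the wall of the `r`-spaces. -/
noncomputable def gr (e : n ≃ Fin (N + 1)) (r : ℕ) (g : FormGroup σ J) : ℝ :=
  Real.log (xp r (rho e σ J g).1)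

/-- all the gaps but the `r`-th -/
noncomputable def gr' (e : n ≃ Fin (N + 1)) (r : ℕ) (g : FormGroup σ J) : ℝ :=
  Real.log (en (rho e σ J g).1) - Real.log (xp r (rho e σ J g).1)

/-- scalars of the group, in columns -/
theorem eqv_of_z (e : n ≃ Fin (N + 1)) {z : FormGroup σ J} (hz : z ∈ ZC σ J)
    (g : FormGroup σ J) : Eqv (rho e σ J (z * g)) (rho e σ J g) := by
  obtain ⟨c, hc⟩ := (ZC σ J).inv_mem hz
  refine ⟨c, ?_⟩
  rw [map_mul]
  change (rho e σ J z).1 * (rho e σ J g).1 = _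
  have h1 : (rho e σ J z).1 = c • (1 : Matrix (Fin (N + 1)) (Fin (N + 1)) k) := by
    change (((z.1⁻¹).1)ᵀ).submatrix e.symm e.symm = _
    have h2 : (z.1⁻¹).1 = c • (1 : Matrix n n k) := hc
    rw [h2, transpose_smul, transpose_one]
    ext i l
    by_cases hil : i = l
    · subst hil
      simp
    · simp [hil, Matrix.one_apply]
  rw [h1, Matrix.smul_mul, Matrix.one_mul]

theorem nmC_z (e : n ≃ Fin (N + 1)) {z : FormGroup σ J} (hz : z ∈ ZC σ J)
    (g : FormGroup σ J) : nmC e (z * g) = nmC e g := (eqv_of_z e hz g).en_eq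

theorem AttC.eqv {j : ℕ} {T : ℝ} {A : Set (Gr k (Fin (N + 1)) j)} {z z' : SLn k (N + 1)}
    (h : Eqv z z') (hA : AttC T A z'.1) : AttC T A z.1 := by
  obtain ⟨c, hc⟩ := h
  have hc1 := scalar_norm hc
  obtain ⟨X, hX, M, hM, he⟩ := hA
  refine ⟨X, hX, c • M, fun v => ?_, fun i l => ?_⟩
  · rw [smul_mulVec]
    exact X.1.smul_mem _ (hM v)
  · rw [hc, en_smul, hc1, one_mul]
    change ‖c * z'.1 i l - c * M i l‖ ≤ _
    rw [← mul_sub, norm_mul, hc1, one_mul]
    exact he i l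

theorem att_eqv {T : ℝ} {A : Set (ℙ k (Fin (N + 1) → k))} {z z' : SLn k (N + 1)}
    (h : Eqv z z') (hA : SN.Att T A z') : SN.Att T A z := by
  have hen : SN.nm z = SN.nm z' := h.en_eq
  obtain ⟨c, hc⟩ := h
  have hc1 := scalar_norm hc
  obtain ⟨v, φ, hv, hvA, he⟩ := hA
  refine ⟨v, fun l => c * φ l, hv, hvA, fun i l => ?_⟩
  rw [hen, hc]
  change ‖c * z'.1 i l - v i * (c * φ l)‖ ≤ _
  have e1 : c * z'.1 i l - v i * (c * φ l) = c * (z'.1 i l - v i * φ l) := by ring
  rw [e1, norm_mul, hc1, one_mul]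
  exact he i l

theorem xp_eqv' {c : ℝ} {d : ℕ} {z z' : SLn k (N + 1)} (h : Eqv z z') (hX : Xp c d z'.1) :
    Xp c d z.1 := by
  obtain ⟨a, ha⟩ := h
  have ha1 := scalar_norm ha
  obtain ⟨V, hV, hv⟩ := hX
  refine ⟨V, hV, fun v hvV => ?_⟩
  rw [ha, smul_mulVec, norm_smul, ha1, one_mul]
  exact hv v hvV

/-- the near-wall sets are invariant under scalars -/
theorem z_NA1C (e : n ≃ Fin (N + 1)) {z : FormGroup σ J} (hz : z ∈ ZC σ J)
    (g : FormGroup σ J) (R T : ℝ) (A : Set (SGr σ J 1)) : z * g ∈ NA1C e R T A ↔ g ∈ NA1C e R T A := by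
  have h := eqv_of_z e hz g
  constructor
  · rintro ⟨h1, h2⟩
    refine ⟨?_, att_eqv h.symm h2⟩
    unfold NW1C at h1 ⊢
    rwa [h.m2_eq, h.en_eq] at h1
  · rintro ⟨h1, h2⟩
    refine ⟨?_, att_eqv h h2⟩
    unfold NW1C at h1 ⊢
    rwa [h.m2_eq, h.en_eq]

theorem z_NA2C (e : n ≃ Fin (N + 1)) {r : ℕ} {z : FormGroup σ J} (hz : z ∈ ZC σ J)
    (g : FormGroup σ J) (R T : ℝ) (A : Set (SGr σ J r)) :
    z * g ∈ NA2C e r R T A ↔ g ∈ NA2C e r R T A := by
  have h := eqv_of_z e hz g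
  constructor
  · rintro ⟨h1, h2⟩
    refine ⟨?_, AttC.eqv h.symm h2⟩
    unfold NWrC at h1 ⊢
    rw [h.en_eq] at h1
    exact xp_eqv' h.symm h1
  · rintro ⟨h1, h2⟩
    refine ⟨?_, AttC.eqv h h2⟩
    unfold NWrC at h1 ⊢
    rw [h.en_eq]
    exact xp_eqv' h h1

theorem z_comm {z : FormGroup σ J} (hz : z ∈ ZC σ J) (g : FormGroup σ J) : z * g = g * z := by
  obtain ⟨c, hc⟩ := hz
  refine Subtype.ext (Subtype.ext ?_)
  change z.1.1 * g.1.1 = g.1.1 * z.1.1
  rw [hc, Matrix.smul_mul, Matrix.mul_smul, Matrix.one_mul, Matrix.mul_one]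

/-- the scalars act trivially -/
theorem z_smul {j : ℕ} {z : FormGroup σ J} (hz : z ∈ ZC σ J) (X : SGr σ J j) : z • X = X := by
  obtain ⟨c, hc⟩ := (ZC σ J).inv_mem hz
  have hc' : (z.1⁻¹).1 = c • (1 : Matrix n n k) := hc
  refine SGr.eq_of_le ?_
  rw [smul_S]
  intro y hy
  obtain ⟨x, hx, rfl⟩ := mem_act.1 hy
  rw [hc', vecMul_smul, vecMul_one]
  exact X.S.smul_mem _ hx

end let_

end Vale.Agent.P092.H632.T2
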