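import Vale.Agent.P092.CL.Lt
import Vale.Agent.P092.H632.T2.Let

/-!
P092, Team P, stages 2 and 3 (helper632): the bridge between the letters of `CL/Lt` (matrix
`ta g = (g⁻¹)ᵀ` on the index type) and the column letters `rho e`, `pt e`, `im e`.
-/

set_option linter.all false

open Matrix Topology Module Set Filter
open scoped LinearAlgebra.Projectivization

namespace Vale.Agent.P092.H632.T2

open Vale.Agent.P092.H303 (FormGroup)
open Vale.Agent.P092.H714.Cl (hf)
open Vale.Agent.P092.H370.Po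
open Vale.Agent.P092.H416.CL (cor roc Je rho pt hf_cor hf_rho rho_cor cor_roc roc_cor pt_eq cor_ne
  exists_vec mem_of_span)
open Vale.Agent.P092.H100.Gr (Gr)
open Vale.Agent.P092.H899.T (Xp Nr)
open Vale.Agent.P092.H337.NG
open Vale.Agent.P092.H820 (pj pj_eq)
open Vale.Agent.P092.CL (ta nmM NW1 NWr AttS scal)

section br

variable {n : Type} [Fintype n] [DecidableEq n] {k : Type} [NontriviallyNormedField k] {N : ℕ}
  {σ : k →+* k} {J : Matrix n n k}

theorem entM_le (A : Matrix n n k) (i j : n) : ‖A i j‖ ≤ nmM A :=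
  (norm_le_pi_norm (fun j => A i j) j).trans (norm_le_pi_norm (fun i j => A i j : n → n → k) i)

theorem nmM_le_of {A : Matrix n n k} {r : ℝ} (hr : 0 ≤ r) (h : ∀ i j, ‖A i j‖ ≤ r) : nmM A ≤ r := by
  unfold nmM
  rw [pi_norm_le_iff_of_nonneg hr]
  intro i
  rw [pi_norm_le_iff_of_nonneg hr]
  exact h i

theorem nmM_nonneg' (A : Matrix n n k) : 0 ≤ nmM A := norm_nonneg _

theorem rho_ta (e : n ≃ Fin (N + 1)) (g : FormGroup σ J) :
    (rho e σ J g).1 = (ta g.1).submatrix e.symm e.symm := rfl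

theorem en_sub (e : n ≃ Fin (N + 1)) (A : Matrix n n k) :
    en (A.submatrix e.symm e.symm) = nmM A := by
  refine le_antisymm (en_le_of (nmM_nonneg' A) fun i j => entM_le A _ _)
    (nmM_le_of (en_nonneg _) fun i j => ?_)
  have h := entry_le (A.submatrix e.symm e.symm) (e i) (e j)
  rwa [submatrix_apply, e.symm_apply_apply, e.symm_apply_apply] at h

/-- the size -/
theorem nm_rho (e : n ≃ Fin (N + 1)) (g : FormGroup σ J) :
    nmM (ta g.1) = en (rho e σ J g).1 := (en_sub e (ta g.1)).symm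

theorem nw1_sub (e : n ≃ Fin (N + 1)) (A : Matrix n n k) {R : ℝ} :
    NW1 R A ↔ m2 (A.submatrix e.symm e.symm) ≤ R * en (A.submatrix e.symm e.symm) := by
  rw [en_sub]
  constructor
  · intro h
    refine m2_le_of ?_ fun i i' j j' => h _ _ _ _
    exact (norm_nonneg _).trans (h (e.symm 0) (e.symm 0) (e.symm 0) (e.symm 0))
  · intro h i i' j j'
    have h1 := mi_le (A.submatrix e.symm e.symm) (e i) (e i') (e j) (e j')
    unfold mi at h1
    simp only [submatrix_apply, Equiv.symm_apply_apply] at h1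
    exact h1.trans h

/-- **near the wall of points** -/
theorem nw1_rho (e : n ≃ Fin (N + 1)) (g : FormGroup σ J) {R : ℝ} :
    NW1 R (ta g.1) ↔ m2 (rho e σ J g).1 ≤ R * en (rho e σ J g).1 := nw1_sub e (ta g.1)

theorem mulVec_sub (e : n ≃ Fin (N + 1)) (A : Matrix n n k) (v : n → k) :
    A.submatrix e.symm e.symm *ᵥ cor e v = cor e (A *ᵥ v) := by
  funext i
  change ∑ j, A (e.symm i) (e.symm j) * v (e.symm j) = ∑ j, A (e.symm i) j * v j
  exact Equiv.sum_comp e.symm fun j => A (e.symm i) j * v j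

theorem norm_cor (e : n ≃ Fin (N + 1)) (v : n → k) : ‖cor e v‖ = ‖v‖ := by
  refine le_antisymm ?_ ?_
  · rw [pi_norm_le_iff_of_nonneg (norm_nonneg _)]
    exact fun i => norm_le_pi_norm v (e.symm i)
  · rw [pi_norm_le_iff_of_nonneg (norm_nonneg _)]
    intro i
    have h := norm_le_pi_norm (cor e v) (e i)
    have e1 : cor e v (e i) = v i := congrArg v (e.symm_apply_apply i)
    rwa [e1] at h

theorem nwr_sub (e : n ≃ Fin (N + 1)) (A : Matrix n n k) {r : ℕ} {R : ℝ} (hR : 0 < R) :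
    NWr r R A ↔ Xp (en (A.submatrix e.symm e.symm) / R) r (A.submatrix e.symm e.symm) := by
  rw [en_sub]
  have key : ∀ v : n → k, nmM A / R * ‖cor e v‖ ≤ ‖A.submatrix e.symm e.symm *ᵥ cor e v‖ ↔
      nmM A * ‖v‖ ≤ R * ‖A *ᵥ v‖ := by
    intro v
    rw [mulVec_sub, norm_cor, norm_cor, div_mul_eq_mul_div, div_le_iff₀ hR, mul_comm _ R]
  constructor
  · rintro ⟨V, hV, h⟩
    refine ⟨V.map (corL (k := k) e : (n → k) →ₗ[k] (Fin (N + 1) → k)),
      (finrank_corL e V).trans hV, ?_⟩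
    rintro _ ⟨v, hv, rfl⟩
    exact (key v).2 (h v hv)
  · rintro ⟨V, hV, h⟩
    refine ⟨V.map ((corL (k := k) e).symm : (Fin (N + 1) → k) →ₗ[k] (n → k)),
      (LinearEquiv.finrank_map_eq (corL (k := k) e).symm V).trans hV, ?_⟩
    rintro _ ⟨v, hv, rfl⟩
    refine (key (roc e v)).1 ?_
    rw [cor_roc]
    exact h v hv

/-- **near the wall of the `r`-spaces** -/
theorem nwr_rho (e : n ≃ Fin (N + 1)) (g : FormGroup σ J) {r : ℕ} {R : ℝ} (hR : 0 < R) :
    NWr r R (ta g.1) ↔ Xp (en (rho e σ J g).1 / R) r (rho e σ J g).1 := nwr_sub e (ta g.1) hR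

theorem mulVec_sub' (e : n ≃ Fin (N + 1)) (M : Matrix (Fin (N + 1)) (Fin (N + 1)) k) (v : n → k) :
    cor e (M.submatrix e e *ᵥ v) = M *ᵥ cor e v := by
  rw [← mulVec_sub, submatrix_submatrix]
  congr 1
  ext i j
  simp

/-- **the attracting subspace** -/
theorem att_rho (e : n ≃ Fin (N + 1)) (g : FormGroup σ J) {j : ℕ} {T : ℝ} {B : Set (SGr σ J j)} :
    AttS T B (ta g.1) ↔ AttC T (im e '' B) (rho e σ J g).1 := by
  constructor
  · rintro ⟨X, hX, D, hD, hd⟩
    refine ⟨im e X, ⟨X, hX, rfl⟩, D.submatrix e.symm e.symm, fun v => ?_, fun i l => ?_⟩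
    · rw [← cor_roc e v, mulVec_sub]
      exact cor_mem_im.2 (hD _)
    · rw [← nm_rho]
      exact hd (e.symm i) (e.symm l)
  · rintro ⟨_, ⟨X, hX, rfl⟩, M, hM, hd⟩
    refine ⟨X, hX, M.submatrix e e, fun v => ?_, fun i l => ?_⟩
    · rw [← cor_mem_im (e := e), mulVec_sub']
      exact hM _
    · have h := hd (e i) (e l)
      rw [← nm_rho, rho_ta, submatrix_apply, e.symm_apply_apply, e.symm_apply_apply] at h
      exact h

/-- **the attracting point** -/
theorem att1_rho (e : n ≃ Fin (N + 1)) (g : FormGroup σ J) {T : ℝ} {B : Set (SGr σ J 1)} :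
    AttS T B (ta g.1) ↔ SN.Att T (pt e '' B) (rho e σ J g) := by
  have hnm : SN.nm (rho e σ J g) = nmM (ta g.1) := (nm_rho e g).symm
  constructor
  · rintro ⟨X, hX, D, hD, hd⟩
    obtain ⟨x, hx, hXs⟩ := exists_vec X
    have h1 : ∀ l : Fin (N + 1), ∃ c : k, c • x = D *ᵥ Pi.single (e.symm l) 1 := fun l => by
      have := hD (Pi.single (e.symm l) 1)
      rw [hXs] at this
      exact Submodule.mem_span_singleton.1 this
    choose φ hφ using h1
    refine ⟨cor e x, φ, cor_ne hx, ⟨X, hX, pt_eq e hx (mem_of_span hXs)⟩, fun i l => ?_⟩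
    rw [hnm]
    have h2 := congrFun (hφ l) (e.symm i)
    rw [mulVec_single_one] at h2
    have h3 : cor e x i * φ l = D (e.symm i) (e.symm l) := by
      rw [mul_comm]
      exact h2
    rw [h3]
    exact hd (e.symm i) (e.symm l)
  · rintro ⟨v, φ, hv, ⟨X, hX, hXv⟩, hd⟩
    rw [hnm] at hd
    obtain ⟨x, hx, hXs⟩ := exists_vec X
    rw [pt_eq e hx (mem_of_span hXs)] at hXv
    obtain ⟨c, hc⟩ := (pj_eq (v := (⟨cor e x, cor_ne hx⟩ : {v : Fin (N + 1) → k // v ≠ 0}))
      (w := ⟨v, hv⟩)).1 hXv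
    have hc' : (c : k) • v = cor e x := hc
    refine ⟨X, hX, fun i j => roc e v i * φ (e j), fun w => ?_, fun i j => ?_⟩
    · have h1 : ((fun i j => roc e v i * φ (e j) : Matrix n n k) *ᵥ w) =
          ((∑ j, φ (e j) * w j) * (c : k)⁻¹) • x := by
        funext i
        have h2 : (c : k) * v (e i) = x i := by
          have := congrFun hc' (e i)
          change (c : k) * v (e i) = x (e.symm (e i)) at this
          rwa [e.symm_apply_apply] at this
        change ∑ j, v (e i) * φ (e j) * w j = ((∑ j, φ (e j) * w j) * (c : k)⁻¹) * x i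
        rw [← h2, mul_assoc, inv_mul_cancel_left₀ c.ne_zero, Finset.sum_mul]
        exact Finset.sum_congr rfl fun j _ => by ring
      rw [h1]
      exact X.S.smul_mem _ (mem_of_span hXs)
    · have h := hd (e i) (e j)
      have e1 : (rho e σ J g).1 (e i) (e j) = ta g.1 i j := by
        rw [rho_ta, submatrix_apply, e.symm_apply_apply, e.symm_apply_apply]
      rw [e1] at h
      exact h

end br

end Vale.Agent.P092.H632.T2
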