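import Vale.Agent.P092.H899.G6
import Vale.Agent.P092.H632.T2.Abs
import Vale.Agent.P092.H632.T2.Br

/-!
P092, Team P, stages 2 and 3, row [CL-TGT] (helper632): the gauges of the classical groups in the
letters of `CL/Lt`: finiteness, translations, stability, cones; raw statements.
-/

set_option linter.all false

open Matrix Topology Module Set Filter

namespace Vale.Agent.P092.H632.T2

open Vale.Agent.P092.H303 (FormGroup)
open Vale.Agent.P092.H714.Cl (hf)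
open Vale.Agent.P092.H370.Po
open Vale.Agent.P092.H416.CL (rho)
open Vale.Agent.P092.H899.T (Xp)
open Vale.Agent.P092.H899.G (Pres pres_ta ta_det IsBp nw1_mv nwr_mv exists_decI mi2 ta_scal ta_mul)
open Vale.Agent.P092.H337.NG
open Vale.Agent.P092.H933 (LocK)
open Vale.Agent.P092.CL (ta nmM NW1 NWr AttS scal)

section sl

variable {k : Type} [NontriviallyNormedField k] {m : ℕ}

theorem h1_le (hm : 2 ≤ m) (z : SLn k m) :
    h1 z ≤ m * Real.log (en z.1) + (Real.log m + Real.log m.factorial) := by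
  have p1 := en_pos (by omega) z
  have p2 := en_pos (by omega) z⁻¹
  have p3 := m2_pos hm z
  have a1 := en_le_m2 hm z
  have a2 := en_le_inv z⁻¹
  rw [inv_inv] at a2
  have m0 : (0 : ℝ) < m := by exact_mod_cast (by omega : 0 < m)
  have f0 : (0 : ℝ) < m.factorial := by exact_mod_cast m.factorial_pos
  have l1 := Real.log_le_log p1 a1
  have l2 := Real.log_le_log p2 a2
  rw [Real.log_mul m0.ne' (by positivity), Real.log_mul p3.ne' p2.ne'] at l1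
  rw [Real.log_mul f0.ne' (by positivity), Real.log_pow] at l2
  have e1 : ((m - 1 : ℕ) : ℝ) = m - 1 := by
    rw [Nat.cast_sub (by omega)]
    simp
  rw [e1] at l2
  unfold h1
  linarith

theorem en_of_h1 (hm : 2 ≤ m) (T : ℝ) : ∃ R : ℝ, ∀ z : SLn k m, R ≤ h1 z → T ≤ en z.1 := by
  refine ⟨m * Real.log T + (Real.log m + Real.log m.factorial) + 1, fun z hz => ?_⟩
  by_contra hc
  push Not at hc
  have p1 := en_pos (by omega) z
  have a1 := h1_le hm z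
  have a2 := Real.log_le_log p1 hc.le
  have m0 : (0 : ℝ) < m := by exact_mod_cast (by omega : 0 < m)
  have a3 := mul_le_mul_of_nonneg_left a2 m0.le
  linarith

theorem en_of_hr {r : ℕ} (hr0 : 1 ≤ r) (hrm : r ≤ m) (T : ℝ) :
    ∃ R : ℝ, ∀ z : SLn k m, R ≤ hr r z → T ≤ en z.1 := by
  refine ⟨Real.log m + Real.log T + 1, fun z hz => ?_⟩
  by_contra hc
  push Not at hc
  have : NeZero m := ⟨by omega⟩
  have p1 := en_pos (by omega) z
  have p2 := xp_pos hr0 hrm z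
  have m0 : (0 : ℝ) < m := by exact_mod_cast (by omega : 0 < m)
  have a1 := Real.log_le_log p2 (xp_le hr0 hrm z.1)
  rw [Real.log_mul m0.ne' p1.ne'] at a1
  have a2 := Real.log_le_log p1 hc.le
  unfold hr at hz
  linarith

end sl

section both

variable {k : Type} [NontriviallyNormedField k] [ProperSpace k] {n : Type} [Fintype n]
  [DecidableEq n]

/-- near both walls: bounded -/
theorem nw_both (hk : LocK k) {r : ℕ} (hr : 2 ≤ r) (hrn : r ≤ Fintype.card n) (R : ℝ) :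
    ∃ C : ℝ, ∀ z : Matrix n n k, z.det = 1 → NW1 R z → NWr r R z → nmM z ≤ C := by
  have : Nonempty n := Fintype.card_pos_iff.1 (by omega)
  obtain ⟨C, hC, hdec⟩ := exists_decI hk (ι := n)
  have hC0 : 0 < C := by linarith
  have hR1 : 1 ≤ max R 1 := le_max_right _ _
  have hR0 : 0 < max R 1 := by linarith
  obtain ⟨Q, hQ⟩ : ∃ Q : ℝ, Q = (Fintype.card n * C) ^ 2 * ((Fintype.card n * C) ^ 2 *
    (max R 1)) * (Fintype.card n * C ^ 2) := ⟨_, rfl⟩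
  have hc0 : (0 : ℝ) < Fintype.card n := by
    have : 0 < Fintype.card n := by omega
    exact_mod_cast this
  refine ⟨max R 1 * ((Fintype.card n * C) * (Fintype.card n * C)) * Q, fun z hz hN hNr => ?_⟩
  obtain ⟨κ, κi, κ', κi', a, h⟩ := hdec z hz
  have hz1 : nmM z ≤ Fintype.card n * C ^ 2 * ‖a ⟨0, by omega⟩‖ :=
    nmM_le_of (by positivity) fun i j => h.z_le hC0.le (by omega) i j
  have hpos : 0 < ‖a ⟨0, by omega⟩‖ := norm_pos_iff.2 (h.ne _)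
  have h3 := h.a2_le hC0.le (show 1 < Fintype.card n by omega)
    (M := max R 1 * (Fintype.card n * C ^ 2 * ‖a ⟨0, by omega⟩‖)) (fun i i' j j' => by
      have e : mi2 z i i' j j' = z i j * z i' j' - z i' j * z i j' := by
        unfold mi2
        ring
      rw [e]
      refine (hN i i' j j').trans ?_
      exact mul_le_mul (le_max_left _ _) hz1 (nmM_nonneg' _) (by linarith))
  have h4 : ‖a ⟨0, by omega⟩‖ * ‖a ⟨1, by omega⟩‖ ≤ ‖a ⟨0, by omega⟩‖ * Q := by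
    refine h3.trans (le_of_eq ?_)
    rw [hQ]
    ring
  have h5 := le_of_mul_le_mul_left h4 hpos
  obtain ⟨V, hV, hVn⟩ := hNr
  have h2 := h.xp_le hC0.le (by omega) hrn (c := nmM z / max R 1) ⟨V, hV, fun v hv => by
    rw [div_mul_eq_mul_div, div_le_iff₀ hR0]
    refine (hVn v hv).trans ?_
    rw [mul_comm]
    exact mul_le_mul_of_nonneg_left (le_max_left _ _) (norm_nonneg _)⟩
  rw [div_le_iff₀ hR0] at h2
  have h6 : ‖a ⟨r - 1, by omega⟩‖ ≤ ‖a ⟨1, by omega⟩‖ :=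
    h.anti (show (⟨1, by omega⟩ : Fin (Fintype.card n)) ≤ ⟨r - 1, by omega⟩ from
      Fin.le_def.2 (show 1 ≤ r - 1 by omega))
  calc nmM z ≤ max R 1 * ((Fintype.card n * C) * (Fintype.card n * C)) *
      ‖a ⟨r - 1, by omega⟩‖ := by
        refine h2.trans (le_of_eq ?_)
        ring
    _ ≤ max R 1 * ((Fintype.card n * C) * (Fintype.card n * C)) * Q :=
        mul_le_mul_of_nonneg_left (h6.trans h5) (by positivity)

end both

section fg

variable {k : Type} [NontriviallyNormedField k] {n : Type} [Fintype n] [DecidableEq n] {N : ℕ}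
  {σ : k →+* k} {J : Matrix n n k}

theorem hom_phom (e : n ≃ Fin (N + 1)) : PHom fun g : FormGroup σ J => rho e σ J g := by
  intro x y
  change Eqv (rho e σ J (x * y)) (rho e σ J x * rho e σ J y)
  rw [map_mul]
  exact Eqv.refl _

theorem scal_zc {z : FormGroup σ J} (hz : z.1 ∈ scal k n) : z ∈ ZC σ J := hz

theorem g1_eq (e : n ≃ Fin (N + 1)) (g : FormGroup σ J) : g1 e g = h1 (rho e σ J g) := rfl

theorem g1'_eq (e : n ≃ Fin (N + 1)) (g : FormGroup σ J) : g1' e g = h1' (rho e σ J g) := rfl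

theorem gr_eq (e : n ≃ Fin (N + 1)) (r : ℕ) (g : FormGroup σ J) :
    gr e r g = hr r (rho e σ J g) := rfl

theorem gr'_eq (e : n ≃ Fin (N + 1)) (r : ℕ) (g : FormGroup σ J) :
    gr' e r g = hr' r (rho e σ J g) := rfl

/-- invariance under scalars -/
theorem g1_z (e : n ≃ Fin (N + 1)) {z : FormGroup σ J} (hz : z.1 ∈ scal k n)
    (g : FormGroup σ J) : g1 e (z * g) = g1 e g ∧ g1' e (z * g) = g1' e g := by
  have h := eqv_of_z e (scal_zc hz) g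
  unfold g1 g1'
  rw [h.en_eq, h.m2_eq]
  exact ⟨rfl, rfl⟩

theorem xp_eqv0 {d : ℕ} {z z' : SLn k (N + 1)} (h : Eqv z z') : xp d z.1 = xp d z'.1 := by
  unfold xp
  congr 1
  ext c
  exact ⟨fun h1 => xp_eqv' h.symm h1, fun h1 => xp_eqv' h h1⟩

theorem gr_z (e : n ≃ Fin (N + 1)) (r : ℕ) {z : FormGroup σ J} (hz : z.1 ∈ scal k n)
    (g : FormGroup σ J) : gr e r (z * g) = gr e r g ∧ gr' e r (z * g) = gr' e r g := by
  have h := eqv_of_z e (scal_zc hz) g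
  unfold gr gr'
  rw [h.en_eq, xp_eqv0 h]
  exact ⟨rfl, rfl⟩

/-- **[fin1]** -/
theorem fin1_raw (hN : 1 ≤ N) (e : n ≃ Fin (N + 1)) (r : ℝ) :
    ∃ C : ℝ, ∀ g : FormGroup σ J, g1 e g ≤ r → g1' e g ≤ r → nmM (ta g.1) ≤ C := by
  refine ⟨Real.exp (r + r / 2), fun g a1 a2 => ?_⟩
  rw [nm_rho e g, ← Real.log_le_iff_le_exp (en_pos (by omega) _), log_en_h1]
  rw [g1_eq] at a1
  rw [g1'_eq] at a2
  linarith

/-- **[fin2]** -/
theorem fin2_raw (hN : 1 ≤ N) (e : n ≃ Fin (N + 1)) (d : ℕ) (r : ℝ) :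
    ∃ C : ℝ, ∀ g : FormGroup σ J, gr e d g ≤ r → gr' e d g ≤ r → nmM (ta g.1) ≤ C := by
  refine ⟨Real.exp (r + r), fun g a1 a2 => ?_⟩
  rw [nm_rho e g, ← Real.log_le_iff_le_exp (en_pos (by omega) _), log_en_hr d]
  rw [gr_eq] at a1
  rw [gr'_eq] at a2
  linarith

/-- near the wall of points -/
theorem nw1_gau (hN : 1 ≤ N) (e : n ≃ Fin (N + 1)) (r : ℝ) :
    ∃ R : ℝ, ∀ g : FormGroup σ J, g1' e g ≤ r → NW1 R (ta g.1) :=
  ⟨Real.exp (r / 2), fun g h => (nw1_rho e g).2 (nw1_of (by omega) h)⟩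

/-- near the wall of `d`-spaces -/
theorem nwr_gau (e : n ≃ Fin (N + 1)) {d : ℕ} (hd : 1 ≤ d) (hdn : d ≤ N + 1) (r : ℝ) :
    ∃ R : ℝ, ∀ g : FormGroup σ J, gr' e d g ≤ r → NWr d R (ta g.1) :=
  ⟨2 * Real.exp r, fun g h => (nwr_rho e g (by positivity)).2 (nwr_of hd hdn h)⟩

theorem NW1.mono' {R R' : ℝ} (h : R ≤ R') {A : Matrix n n k} (hA : NW1 R A) : NW1 R' A :=
  fun i i' j j' => (hA i i' j j').trans (mul_le_mul_of_nonneg_right h (nmM_nonneg' A))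

theorem NWr.mono' {d : ℕ} {R R' : ℝ} (h : R ≤ R') {A : Matrix n n k} (hA : NWr d R A) :
    NWr d R' A := by
  obtain ⟨V, hV, hv⟩ := hA
  exact ⟨V, hV, fun v hvV => (hv v hvV).trans (mul_le_mul_of_nonneg_right h (norm_nonneg _))⟩

/-- **[fin12]** -/
theorem fin12_raw [ProperSpace k] (hk : LocK k) (e : n ≃ Fin (N + 1)) {d : ℕ} (hd : 2 ≤ d)
    (hdn : d ≤ N + 1) (r : ℝ) :
    ∃ C : ℝ, ∀ g : FormGroup σ J, g1' e g ≤ r → gr' e d g ≤ r → nmM (ta g.1) ≤ C := by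
  have hcard : Fintype.card n = N + 1 := by
    rw [Fintype.card_congr e, Fintype.card_fin]
  obtain ⟨R1, h1⟩ := nw1_gau (σ := σ) (J := J) (show 1 ≤ N by omega) e r
  obtain ⟨R2, h2⟩ := nwr_gau (σ := σ) (J := J) e (show 1 ≤ d by omega) hdn r
  obtain ⟨C, hC⟩ := nw_both (n := n) hk hd (by omega) (max R1 R2)
  exact ⟨C, fun g a1 a2 => hC _ (ta_det g.1) (NW1.mono' (le_max_left _ _) (h1 g a1))
    (NWr.mono' (le_max_right _ _) (h2 g a2))⟩

/-- **[gap1]** -/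
theorem gap1_raw (hN : 1 ≤ N) (e : n ≃ Fin (N + 1)) (s u : FormGroup σ J) :
    ∃ C : ℝ, ∀ z : FormGroup σ J, z.1 ∈ scal k n → ∀ x,
      |g1 e (z * (s * x * u)) - g1 e x| ≤ C ∧ |g1' e (z * (s * x * u)) - g1' e x| ≤ C := by
  obtain ⟨C, hC⟩ := gap_h1 (by omega) (hom_phom (σ := σ) (J := J) e) s u
  refine ⟨C, fun z hz x => ?_⟩
  obtain ⟨e1, e2⟩ := g1_z e hz (s * x * u)
  rw [e1, e2]
  exact hC x

/-- **[gap2]** -/
theorem gap2_raw (hN : 1 ≤ N) (e : n ≃ Fin (N + 1)) {d : ℕ} (hd : 1 ≤ d) (hdn : d ≤ N + 1)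
    (s u : FormGroup σ J) :
    ∃ C : ℝ, ∀ z : FormGroup σ J, z.1 ∈ scal k n → ∀ x,
      |gr e d (z * (s * x * u)) - gr e d x| ≤ C ∧
      |gr' e d (z * (s * x * u)) - gr' e d x| ≤ C := by
  obtain ⟨C, hC⟩ := gap_hr hd hdn (by omega) (hom_phom (σ := σ) (J := J) e) s u
  refine ⟨C, fun z hz x => ?_⟩
  obtain ⟨e1, e2⟩ := gr_z e d hz (s * x * u)
  rw [e1, e2]
  exact hC x

/-- **[stab]**, both walls -/
theorem stab_raw [ProperSpace k] [Nonempty n] (hσ : ∀ x, ‖σ x‖ = ‖x‖) {d : ℕ}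
    {NW : ℝ → Matrix n n k → Prop}
    (hNW : ∀ C R : ℝ, ∃ R' : ℝ, ∀ x z : Matrix n n k, H899.G.Mv C x z → NW R x → NW R' z)
    {bp : FormGroup σ J → SGr σ J d} (h : IsBp d NW bp) {G H : FormGroup σ J → ℝ}
    (hH : ∀ r : ℝ, ∃ R : ℝ, ∀ g : FormGroup σ J, H g ≤ r → NW R (ta g.1))
    (hG : ∀ T : ℝ, ∃ R : ℝ, ∀ g : FormGroup σ J, R ≤ G g → T ≤ nmM (ta g.1))
    (s u : FormGroup σ J) (f : C(SGr σ J d, ℝ)) (ε : ℝ) (hε : 0 < ε) (r : ℝ) :
    ∃ R : ℝ, ∀ z : FormGroup σ J, z.1 ∈ scal k n → ∀ x, R ≤ G x → H x ≤ r →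
      |f (bp (z * (s * x * u))) - f (s • bp x)| ≤ ε := by
  obtain ⟨R1, h1⟩ := hH r
  obtain ⟨T, hT⟩ := h.stab hσ hNW f.continuous s u R1 hε
  obtain ⟨R, hR⟩ := hG T
  refine ⟨R, fun z hz x hx hr => ?_⟩
  obtain ⟨t, ht, ht2⟩ := ta_scal hz
  have h2 := hT x (z * (s * x * u)) t ht (by
    change ta (z.1 * (s.1 * x.1 * u.1)) = _
    rw [ht2, ta_mul, ta_mul]) (h1 x hr) (hR x hx)
  rw [Real.dist_eq] at h2
  exact h2.le

/-- **[dom]**, both walls -/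
theorem dom_raw [ProperSpace k] {d : ℕ} (hd : 1 ≤ d) {NW : ℝ → Matrix n n k → Prop}
    {bp : FormGroup σ J → SGr σ J d} (h : IsBp d NW bp) {G H : FormGroup σ J → ℝ}
    (hH : ∀ r : ℝ, ∃ R : ℝ, ∀ g : FormGroup σ J, H g ≤ r → NW R (ta g.1))
    (hG : ∀ T : ℝ, ∃ R : ℝ, ∀ g : FormGroup σ J, R ≤ G g → T ≤ nmM (ta g.1)) (r : ℝ) :
    ∃ R : ℝ, ∀ t > 0, ∃ t' : ℝ, ∀ (A : Set (SGr σ J d)) (g : FormGroup σ J), H g ≤ G g →
      bp g ∈ A → (NW R (ta g.1) ∧ AttS t A (ta g.1)) ∨ (G g ≤ t' ∧ H g ≤ t') ∨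
        (r < G g ∧ r < H g) := by
  obtain ⟨R, hR⟩ := hH r
  refine ⟨R, fun t ht => ?_⟩
  obtain ⟨S, hS⟩ := h.att hd R ht
  obtain ⟨T, hT⟩ := hG S
  refine ⟨T, fun A g hgg hA => ?_⟩
  by_cases h3 : H g ≤ r
  · by_cases h4 : T ≤ G g
    · left
      exact ⟨hR g h3, hS g (hR g h3) (hT g h4) A hA⟩
    · right; left
      push Not at h4
      exact ⟨h4.le, hgg.trans h4.le⟩
  · right; right
    push Not at h3
    exact ⟨lt_of_lt_of_le h3 hgg, h3⟩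

theorem big1_raw (hN : 1 ≤ N) (e : n ≃ Fin (N + 1)) (T : ℝ) :
    ∃ R : ℝ, ∀ g : FormGroup σ J, R ≤ g1 e g → T ≤ nmM (ta g.1) := by
  obtain ⟨R, hR⟩ := en_of_h1 (k := k) (m := N + 1) (by omega) T
  refine ⟨R, fun g hg => ?_⟩
  rw [nm_rho e g]
  exact hR _ hg

theorem bigr_raw (e : n ≃ Fin (N + 1)) {d : ℕ} (hd : 1 ≤ d) (hdn : d ≤ N + 1) (T : ℝ) :
    ∃ R : ℝ, ∀ g : FormGroup σ J, R ≤ gr e d g → T ≤ nmM (ta g.1) := by
  obtain ⟨R, hR⟩ := en_of_hr (k := k) hd hdn T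
  refine ⟨R, fun g hg => ?_⟩
  rw [nm_rho e g]
  exact hR _ hg

end fg

end Vale.Agent.P092.H632.T2
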