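import Vale.Agent.P092.CL.ExDefs
import Vale.Agent.P092.H632.T2.Gau

/-!
P092, Team P, stages 2 and 3, row [CL-TGT] (helper632): `GauOk` for every record of letters whose
sizes and near-wall sets are those of a homomorphism to the isometry group of a form
(`CL.lt`, `CL.ltO`).
-/

set_option linter.all false

open Matrix Topology Module Set Filter

namespace Vale.Agent.P092.H632.T2

open Vale.Agent.P092.H303 (FormGroup Idx hyp)
open Vale.Agent.P092.H714.Cl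
open Vale.Agent.P092.H370.Po
open Vale.Agent.P092.H416.CL (rho)
open Vale.Agent.P092.H899.G (IsBp nw1_mv nwr_mv exists_bp1 exists_bpr)
open Vale.Agent.P092.H337.NG
open Vale.Agent.P092.H933 (LocK)
open Vale.Agent.P092.CL (ta nmM NW1 NWr AttS scal Lt Gau GauOk lt)

section gen

variable {k : Type} [NontriviallyNormedField k] {n : Type} [Fintype n] [DecidableEq n] {N : ℕ}
  {σ : k →+* k} {J : Matrix n n k} {r : ℕ} {S V₁ V₂ : Type} [Group S] [MeasurableSpace V₁]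
  [MeasurableSpace V₂] [MulAction S (SGr σ J 1)] [MulAction S (SGr σ J r)]

/-- **The gauges.** -/
noncomputable def gau (e : n ≃ Fin (N + 1)) (r : ℕ) (φ : S →* FormGroup σ J)
    (bp : FormGroup σ J → SGr σ J 1) (bm : FormGroup σ J → SGr σ J r) :
    Gau S (SGr σ J 1) (SGr σ J r) where
  G1 g := g1 e (φ g)
  H1 g := g1' e (φ g)
  G2 g := gr e r (φ g)
  H2 g := gr' e r (φ g)
  bp g := bp (φ g)
  bm g := bm (φ g)

/-- The letters of `L` are the standard ones, through `φ`. -/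
structure Std (L : Lt S (SGr σ J 1) (SGr σ J r) V₁ V₂) (φ : S →* FormGroup σ J) : Prop where
  nm : ∀ g, L.nm g = nmM (ta (φ g).1)
  na1 : ∀ R T A g, NW1 R (ta (φ g).1) → AttS T A (ta (φ g).1) → g ∈ L.NA1 R T A
  na2 : ∀ R T A g, NWr r R (ta (φ g).1) → AttS T A (ta (φ g).1) → g ∈ L.NA2 R T A
  z : ∀ z ∈ L.Z, (φ z).1 ∈ scal k n
  a1 : ∀ (g : S) (X : SGr σ J 1), g • X = φ g • X
  a2 : ∀ (g : S) (X : SGr σ J r), g • X = φ g • X

/-- **[CL-TGT]: `GauOk`.** -/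
theorem gauOk_of [ProperSpace k] (hk : LocK k) (hσ : ∀ x, ‖σ x‖ = ‖x‖) (e : n ≃ Fin (N + 1))
    (hr : 2 ≤ r) (hrN : r ≤ N + 1) {L : Lt S (SGr σ J 1) (SGr σ J r) V₁ V₂}
    {φ : S →* FormGroup σ J} (hL : Std L φ) {bp : FormGroup σ J → SGr σ J 1}
    (hbp : IsBp 1 NW1 bp) {bm : FormGroup σ J → SGr σ J r} (hbm : IsBp r (NWr r) bm) :
    GauOk L (gau e r φ bp bm) := by
  have hN : 1 ≤ N := by omega
  have hr1 : 1 ≤ r := by omega
  haveI : Nonempty n := ⟨e.symm 0⟩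
  exact
  { fin1 := fun t => by
      obtain ⟨C, hC⟩ := fin1_raw (σ := σ) (J := J) hN e t
      exact ⟨C, fun g a b => (hL.nm g).trans_le (hC (φ g) a b)⟩
    fin2 := fun t => by
      obtain ⟨C, hC⟩ := fin2_raw (σ := σ) (J := J) hN e r t
      exact ⟨C, fun g a b => (hL.nm g).trans_le (hC (φ g) a b)⟩
    fin12 := fun t => by
      obtain ⟨C, hC⟩ := fin12_raw (σ := σ) (J := J) hk e hr hrN t
      exact ⟨C, fun g a b => (hL.nm g).trans_le (hC (φ g) a b)⟩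
    gap1 := fun s u => by
      obtain ⟨C, hC⟩ := gap1_raw hN e (φ s) (φ u)
      refine ⟨C, fun z hz x => ?_⟩
      have h := hC (φ z) (hL.z z hz) (φ x)
      rw [← map_mul, ← map_mul, ← map_mul] at h
      exact h
    gap2 := fun s u => by
      obtain ⟨C, hC⟩ := gap2_raw hN e hr1 hrN (φ s) (φ u)
      refine ⟨C, fun z hz x => ?_⟩
      have h := hC (φ z) (hL.z z hz) (φ x)
      rw [← map_mul, ← map_mul, ← map_mul] at h
      exact h
    stab1 := fun s u f ε hε t => by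
      obtain ⟨R, hR⟩ := stab_raw hσ nw1_mv hbp (nw1_gau hN e) (big1_raw hN e) (φ s) (φ u) f ε hε t
      refine ⟨R, fun z hz x hx hx' => ?_⟩
      have h := hR (φ z) (hL.z z hz) (φ x) hx hx'
      rw [← map_mul, ← map_mul, ← map_mul, ← hL.a1] at h
      exact h
    stab2 := fun s u f ε hε t => by
      obtain ⟨R, hR⟩ := stab_raw hσ (nwr_mv r) hbm (nwr_gau e hr1 hrN) (bigr_raw e hr1 hrN)
        (φ s) (φ u) f ε hε t
      refine ⟨R, fun z hz x hx hx' => ?_⟩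
      have h := hR (φ z) (hL.z z hz) (φ x) hx hx'
      rw [← map_mul, ← map_mul, ← map_mul, ← hL.a2] at h
      exact h
    dom1 := fun t => by
      obtain ⟨R, hR⟩ := dom_raw le_rfl hbp (nw1_gau hN e) (big1_raw hN e) t
      refine ⟨R, fun T hT => ?_⟩
      obtain ⟨t', ht'⟩ := hR T hT
      refine ⟨t', fun A g hg hA => ?_⟩
      rcases ht' A (φ g) hg hA with h | h | h
      · exact Or.inl (hL.na1 R T A g h.1 h.2)
      · exact Or.inr (Or.inl h)
      · exact Or.inr (Or.inr h)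
    dom2 := fun t => by
      obtain ⟨R, hR⟩ := dom_raw hr1 hbm (nwr_gau e hr1 hrN) (bigr_raw e hr1 hrN) t
      refine ⟨R, fun T hT => ?_⟩
      obtain ⟨t', ht'⟩ := hR T hT
      refine ⟨t', fun A g hg hA => ?_⟩
      rcases ht' A (φ g) hg hA with h | h | h
      · exact Or.inl (hL.na2 R T A g h.1 h.2)
      · exact Or.inr (Or.inl h)
      · exact Or.inr (Or.inr h) }

end gen

section letters

variable {k : Type} [NontriviallyNormedField k] [MeasurableSpace k] {ι : Type} [Fintype ι]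
  [DecidableEq ι] {s N : ℕ} {σ : k →+* k} {ε : k} {J₀ : Matrix ι ι k}

/-- the letters of `CL/Lt` are standard -/
theorem std_lt (hF : Frm σ ε (hyp (s + 2) ε J₀)) {w : k} (hw : w ≠ 0) (hσw : σ w = w)
    (μ₁ : MeasureTheory.Measure k) (μ₂ : MeasureTheory.Measure (CL.V2 σ ε)) :
    Std (lt hF hw hσw μ₁ μ₂) (MonoidHom.id _) where
  nm _ := rfl
  na1 _ _ _ _ h1 h2 := ⟨h1, h2⟩
  na2 _ _ _ _ h1 h2 := ⟨h1, h2⟩
  z _ hz := hz
  a1 _ _ := rfl
  a2 _ _ := rfl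

/-- **`GauOk` for `CL.lt`, every choice of the attracting places.** -/
theorem gauOk_lt' [ProperSpace k] (hk : LocK k) (hσ : ∀ x, ‖σ x‖ = ‖x‖)
    (e : Idx (s + 2) ι ≃ Fin (N + 1)) (hF : Frm σ ε (hyp (s + 2) ε J₀)) {w : k} (hw : w ≠ 0)
    (hσw : σ w = w) (μ₁ : MeasureTheory.Measure k) (μ₂ : MeasureTheory.Measure (CL.V2 σ ε))
    {bp : FormGroup σ (hyp (s + 2) ε J₀) → SGr σ (hyp (s + 2) ε J₀) 1} (hbp : IsBp 1 NW1 bp)
    {bm : FormGroup σ (hyp (s + 2) ε J₀) → SGr σ (hyp (s + 2) ε J₀) (s + 2)}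
    (hbm : IsBp (s + 2) (NWr (s + 2)) bm) :
    GauOk (lt hF hw hσw μ₁ μ₂) (gau e (s + 2) (MonoidHom.id _) bp bm) := by
  have hcard : Fintype.card (Idx (s + 2) ι) = N + 1 := by
    rw [Fintype.card_congr e, Fintype.card_fin]
  have h2 : s + 2 ≤ N + 1 := by
    rw [← hcard]
    have : Fintype.card (Idx (s + 2) ι) = (s + 2) + (s + 2) + Fintype.card ι := by
      unfold Idx
      rw [Fintype.card_sum, Fintype.card_sum, Fintype.card_fin]
    omega
  exact gauOk_of hk hσ e (by omega) h2 (std_lt hF hw hσw μ₁ μ₂) hbp hbm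

/-- **`GauOk` for `CL.lt`.** -/
theorem gauOk_lt [ProperSpace k] (hk : LocK k) (hσ : ∀ x, ‖σ x‖ = ‖x‖)
    (e : Idx (s + 2) ι ≃ Fin (N + 1)) (hF : Frm σ ε (hyp (s + 2) ε J₀))
    (hW : WI σ (hyp (s + 2) ε J₀) (s + 2)) {w : k} (hw : w ≠ 0)
    (hσw : σ w = w) (μ₁ : MeasureTheory.Measure k) (μ₂ : MeasureTheory.Measure (CL.V2 σ ε)) :
    ∃ (bp : FormGroup σ (hyp (s + 2) ε J₀) → SGr σ (hyp (s + 2) ε J₀) 1)
      (bm : FormGroup σ (hyp (s + 2) ε J₀) → SGr σ (hyp (s + 2) ε J₀) (s + 2)),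
      GauOk (lt hF hw hσw μ₁ μ₂) (gau e (s + 2) (MonoidHom.id _) bp bm) := by
  haveI : Nonempty (SGr σ (hyp (s + 2) ε J₀) 1) := ⟨CL.p0⟩
  haveI : Nonempty (SGr σ (hyp (s + 2) ε J₀) (s + 2)) := ⟨CL.m0⟩
  have hc : 2 ≤ Fintype.card (Idx (s + 2) ι) := by
    have : Fintype.card (Idx (s + 2) ι) = (s + 2) + (s + 2) + Fintype.card ι := by
      unfold Idx
      rw [Fintype.card_sum, Fintype.card_sum, Fintype.card_fin]
    omega
  obtain ⟨bp, hbp⟩ := exists_bp1 (J := hyp (s + 2) ε J₀) hk hσ hc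
  obtain ⟨bm, hbm⟩ := exists_bpr (J := hyp (s + 2) ε J₀) hk hσ (by omega) hW
  exact ⟨bp, bm, gauOk_lt' hk hσ e hF hw hσw μ₁ μ₂ hbp hbm⟩

end letters

end Vale.Agent.P092.H632.T2
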