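import Vale.Agent.P092.CL.LtO
import Vale.Agent.P092.H632.T2.Gok

/-!
P092, Team P, stage CL-O (helper632): `GauOk` for the letters `CL.ltO` of the orthogonal groups.
-/

set_option linter.all false

open Matrix Topology Module Set Filter

namespace Vale.Agent.P092.H632.T2

open Vale.Agent.P092.H303 (FormGroup Idx hyp)
open Vale.Agent.P092.H714.Cl
open Vale.Agent.P092.H370.Po
open Vale.Agent.P092.H899.G (IsBp exists_bp1 exists_bpr)
open Vale.Agent.P092.H933 (LocK)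
open Vale.Agent.P092.CL (ta nmM NW1 NWr AttS scal Lt Gau GauOk ltO OF EUF)

section letters

variable {k : Type} [NontriviallyNormedField k] [MeasurableSpace k] {ι : Type} [Fintype ι]
  [DecidableEq ι] {s N : ℕ} {J₀ : Matrix ι ι k}

theorem std_ltO (h : OF J₀) {a : k} (ha : a ≠ 0) (μ₁ : MeasureTheory.Measure k)
    (μ₂ : MeasureTheory.Measure (ι → k)) :
    Std (ltO h s ha μ₁ μ₂) (EUF (RingHom.id k) 1 (hyp (s + 2) 1 J₀)).subtype where
  nm _ := rfl
  na1 _ _ _ _ h1 h2 := ⟨h1, h2⟩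
  na2 _ _ _ _ h1 h2 := ⟨h1, h2⟩
  z _ hz := hz
  a1 _ _ := rfl
  a2 _ _ := rfl

/-- **`GauOk` for `CL.ltO`.** -/
theorem gauOk_ltO [ProperSpace k] (hk : LocK k) (e : Idx (s + 2) ι ≃ Fin (N + 1)) (h : OF J₀)
    (hW : WI (RingHom.id k) (hyp (s + 2) 1 J₀) (s + 2)) {a : k} (ha : a ≠ 0)
    (μ₁ : MeasureTheory.Measure k) (μ₂ : MeasureTheory.Measure (ι → k)) :
    ∃ (bp : FormGroup (RingHom.id k) (hyp (s + 2) 1 J₀) → SGr (RingHom.id k) (hyp (s + 2) 1 J₀) 1)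
      (bm : FormGroup (RingHom.id k) (hyp (s + 2) 1 J₀) →
        SGr (RingHom.id k) (hyp (s + 2) 1 J₀) (s + 2)),
      GauOk (ltO h s ha μ₁ μ₂) (gau e (s + 2) (Subgroup.subtype _) bp bm) := by
  haveI : Nonempty (SGr (RingHom.id k) (hyp (s + 2) 1 J₀) 1) := ⟨CL.p0⟩
  haveI : Nonempty (SGr (RingHom.id k) (hyp (s + 2) 1 J₀) (s + 2)) := ⟨CL.m0⟩
  have hc : Fintype.card (Idx (s + 2) ι) = (s + 2) + (s + 2) + Fintype.card ι := by
    unfold Idx
    rw [Fintype.card_sum, Fintype.card_sum, Fintype.card_fin]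
  have hcard : Fintype.card (Idx (s + 2) ι) = N + 1 := by
    rw [Fintype.card_congr e, Fintype.card_fin]
  obtain ⟨bp, hbp⟩ := exists_bp1 (σ := RingHom.id k) (J := hyp (s + 2) 1 J₀) hk (fun _ => rfl)
    (by omega)
  obtain ⟨bm, hbm⟩ := exists_bpr (σ := RingHom.id k) (J := hyp (s + 2) 1 J₀) hk (fun _ => rfl)
    (by omega) hW
  exact ⟨bp, bm, gauOk_of hk (fun _ => rfl) e (by omega) (by omega) (std_ltO h ha μ₁ μ₂) hbp hbm⟩

end letters

end Vale.Agent.P092.H632.T2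

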