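import Vale.Agent.P092.H632.T2.Gok

/-!
P092, Team P (helper632), track H: a sharp attracting point. `X_1, …, X_m` isotropic points which
span the space, `bp g = g • X_i` with `i` such that `ta g` expands `X_i` by a constant times its
norm. It is exactly isotropic, and near the wall of points its distance to the attracting direction
is at most a constant divided by the norm of `g`.
-/

set_option linter.all false

open Matrix Topology Module Set Filter

namespace Vale.Agent.P092.H632.T2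

open Vale.Agent.P092.H303 (FormGroup Idx hyp)
open Vale.Agent.P092.H714.Cl
open Vale.Agent.P092.H370.Po
open Vale.Agent.P092.H416.CL (rho exists_vec pv mem_of_span)
open Vale.Agent.P092.H899.G (IsBp AtL nw1_mv nwr_mv exists_bp1 exists_bpr smul_map)
open Vale.Agent.P092.H933 (LocK)
open Vale.Agent.P092.CL (ta nmM NW1 NWr AttS scal Lt Gau GauOk lt)

section span

variable {k : Type} [Field k] {n : Type} [Fintype n] [DecidableEq n] {σ : k →+* k} {ε : k}
  {J : Matrix n n k}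

theorem corr_x (herm : ∀ x y, hf σ J y x = ε * σ (hf σ J x y))
    (tv : ∀ y, ∃ β, hf σ J y y = β + ε * σ β) {u y : n → k} (hu : hf σ J u u = 0)
    (hy : hf σ J u y ≠ 0) : ∃ α : k, hf σ J (y + α • u) (y + α • u) = 0 := by
  obtain ⟨β, hβ⟩ := tv y
  refine ⟨-β / hf σ J u y, ?_⟩
  rw [hf_add_left, hf_add_right, hf_add_right, hf_smul_left, hf_smul_left, hf_smul_right,
    hf_smul_right, hu, mul_zero, mul_zero, add_zero, hβ, herm u y, map_div₀, map_neg]
  have hs : σ (hf σ J u y) ≠ 0 := by rwa [Ne, map_eq_zero]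
  field_simp
  ring

/-- the isotropic vectors span -/
theorem span_x (herm : ∀ x y, hf σ J y x = ε * σ (hf σ J x y))
    (tv : ∀ y, ∃ β, hf σ J y y = β + ε * σ β)
    (nondeg : ∀ x, x ≠ 0 → ∃ y, hf σ J x y ≠ 0) (iso : ∃ u, u ≠ 0 ∧ hf σ J u u = 0) :
    Submodule.span k {x : n → k | hf σ J x x = 0} = ⊤ := by
  obtain ⟨e, he0, he⟩ := iso
  obtain ⟨y, hy⟩ := nondeg e he0
  obtain ⟨α, hα⟩ := corr_x herm tv he hy
  obtain ⟨e', he'⟩ : ∃ e', e' = y + α • e := ⟨_, rfl⟩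
  rw [← he'] at hα
  have hne : hf σ J e e' ≠ 0 := by
    rw [he', hf_add_right, hf_smul_right, he, mul_zero, add_zero]
    exact hy
  obtain ⟨T, hT⟩ : ∃ T, T = Submodule.span k {x : n → k | hf σ J x x = 0} := ⟨_, rfl⟩
  have hTm : ∀ v, hf σ J v v = 0 → v ∈ T := fun v hv => by
    rw [hT]
    exact Submodule.subset_span hv
  rw [← hT, eq_top_iff]
  have key : ∀ u, hf σ J e u ≠ 0 → u ∈ T := by
    intro u h
    obtain ⟨β, hβ⟩ := corr_x herm tv he h
    have h1 := hTm _ hβ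
    have h2 : u = (u + β • e) - β • e := by abel
    rw [h2]
    exact T.sub_mem h1 (T.smul_mem _ (hTm e he))
  intro u _
  by_cases h : hf σ J e u = 0
  · have h1 := key (u + e') (by rw [hf_add_right, h, zero_add]; exact hne)
    have h2 : u = (u + e') - e' := by abel
    rw [h2]
    exact T.sub_mem h1 (hTm e' hα)
  · exact key u h

theorem span_frm (hF : Frm σ ε J) : Submodule.span k {x : n → k | hf σ J x x = 0} = ⊤ :=
  span_x hF.herm hF.tv hF.nondeg hF.iso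

end span

section mat

variable {k : Type} [NontriviallyNormedField k] {n : Type} [Fintype n] [DecidableEq n]

/-- some vector of a finite spanning family is expanded by a constant times the norm -/
theorem exists_big {I : Type} [Fintype I] (b : Basis I k (n → k)) :
    ∃ c : ℝ, 0 < c ∧ ∀ A : Matrix n n k, (∃ i j, A i j ≠ 0) →
      ∃ i : I, c * nmM A * ‖b i‖ ≤ ‖A *ᵥ b i‖ := by
  obtain ⟨D, hD⟩ : ∃ D : ℝ, D = ∑ j : n, ∑ i : I, ‖b.repr (Pi.single j 1) i‖ := ⟨_, rfl⟩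
  obtain ⟨E, hE⟩ : ∃ E : ℝ, E = ∑ i : I, ‖b i‖ := ⟨_, rfl⟩
  have hD0 : 0 ≤ D := by rw [hD]; positivity
  have hE0 : 0 ≤ E := by rw [hE]; positivity
  refine ⟨1 / ((D + 1) * (E + 1)), by positivity, fun A ⟨i₀, j₀, hA⟩ => ?_⟩
  have hI : Nonempty I := by
    by_contra hc
    rw [not_nonempty_iff] at hc
    have h1 : (Pi.single j₀ 1 : n → k) = 0 := by
      rw [← b.sum_repr (Pi.single j₀ 1)]
      exact Finset.sum_of_isEmpty _
    have h2 := congrFun h1 j₀
    rw [Pi.single_eq_same] at h2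
    exact one_ne_zero h2
  obtain ⟨i, -, hi⟩ := Finset.exists_max_image Finset.univ (fun i => ‖A *ᵥ b i‖)
    Finset.univ_nonempty
  refine ⟨i, ?_⟩
  have h1 : nmM A ≤ D * ‖A *ᵥ b i‖ := by
    refine nmM_le_of (by positivity) fun a j => ?_
    have e1 : A a j = ∑ l, b.repr (Pi.single j 1) l * (A *ᵥ b l) a := by
      have e2 : (Pi.single j 1 : n → k) = ∑ l, b.repr (Pi.single j 1) l • b l :=
        (b.sum_repr _).symm
      have e3 : A *ᵥ (Pi.single j 1 : n → k) = ∑ l, b.repr (Pi.single j 1) l • (A *ᵥ b l) := by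
        conv_lhs => rw [e2]
        rw [mulVec_sum]
        exact Finset.sum_congr rfl fun l _ => mulVec_smul _ _ _
      have e4 := congrFun e3 a
      rw [mulVec_single_one, Finset.sum_apply] at e4
      exact e4
    rw [e1]
    refine (norm_sum_le _ _).trans ?_
    have h2 : ∀ l ∈ Finset.univ, ‖b.repr (Pi.single j 1) l * (A *ᵥ b l) a‖ ≤
        ‖b.repr (Pi.single j 1) l‖ * ‖A *ᵥ b i‖ := fun l hl => by
      rw [norm_mul]
      exact mul_le_mul_of_nonneg_left ((norm_le_pi_norm (A *ᵥ b l) a).trans (hi l hl))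
        (norm_nonneg _)
    refine (Finset.sum_le_sum h2).trans ?_
    rw [← Finset.sum_mul]
    refine mul_le_mul_of_nonneg_right ?_ (norm_nonneg _)
    rw [hD]
    exact Finset.single_le_sum (f := fun j : n => ∑ i : I, ‖b.repr (Pi.single j 1) i‖)
      (fun _ _ => by positivity) (Finset.mem_univ j)
  have h3 : ‖b i‖ ≤ E := by
    rw [hE]
    exact Finset.single_le_sum (f := fun i : I => ‖b i‖) (fun _ _ => norm_nonneg _)
      (Finset.mem_univ i)
  have h4 := norm_nonneg (A *ᵥ b i)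
  have h5 := nmM_nonneg' A
  rw [div_mul_eq_mul_div, one_mul, div_mul_eq_mul_div, div_le_iff₀ (by positivity)]
  have h6 : D * E ≤ (D + 1) * (E + 1) := by nlinarith
  have h7 := mul_le_mul_of_nonneg_left h6 h4
  calc nmM A * ‖b i‖ ≤ (D * ‖A *ᵥ b i‖) * E := mul_le_mul h1 h3 (norm_nonneg _) (by positivity)
    _ = ‖A *ᵥ b i‖ * (D * E) := by ring
    _ ≤ ‖A *ᵥ b i‖ * ((D + 1) * (E + 1)) := h7

theorem wedge_eq (z : Matrix n n k) (x y : n → k) (i j : n) :
    (z *ᵥ x) i * (z *ᵥ y) j - (z *ᵥ x) j * (z *ᵥ y) i =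
      ∑ a, ∑ b, (z i a * z j b - z j a * z i b) * (x a * y b) := by
  simp only [mulVec, dotProduct, Finset.sum_mul_sum]
  rw [← Finset.sum_sub_distrib]
  refine Finset.sum_congr rfl fun a _ => ?_
  rw [← Finset.sum_sub_distrib]
  exact Finset.sum_congr rfl fun b _ => by ring

theorem wedge_le {R : ℝ} {z : Matrix n n k} (h : NW1 R z) (x y : n → k) (i j : n) :
    ‖(z *ᵥ x) i * (z *ᵥ y) j - (z *ᵥ x) j * (z *ᵥ y) i‖ ≤
      Fintype.card n ^ 2 * (|R| * nmM z) * (‖x‖ * ‖y‖) := by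
  rw [wedge_eq]
  have h5 := nmM_nonneg' z
  have h1 : ∀ a b, ‖(z i a * z j b - z j a * z i b) * (x a * y b)‖ ≤
      (|R| * nmM z) * (‖x‖ * ‖y‖) := fun a b => by
    rw [norm_mul, norm_mul]
    refine mul_le_mul ?_ (mul_le_mul (norm_le_pi_norm x a) (norm_le_pi_norm y b) (norm_nonneg _)
      (norm_nonneg _)) (by positivity) (by positivity)
    refine (h i j a b).trans ?_
    exact mul_le_mul_of_nonneg_right (le_abs_self R) h5
  calc ‖∑ a, ∑ b, (z i a * z j b - z j a * z i b) * (x a * y b)‖ ≤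
      ∑ _a : n, ∑ _b : n, (|R| * nmM z) * (‖x‖ * ‖y‖) :=
        (norm_sum_le _ _).trans (Finset.sum_le_sum fun a _ =>
          (norm_sum_le _ _).trans (Finset.sum_le_sum fun b _ => h1 a b))
    _ = _ := by
        rw [Finset.sum_const, Finset.sum_const, Finset.card_univ, nsmul_eq_mul, nsmul_eq_mul]
        ring

/-- an invertible matrix is not zero -/
theorem ta_ne [Nonempty n] (g : SpecialLinearGroup n k) : ∃ i j, ta g i j ≠ 0 := by
  by_contra hc
  push Not at hc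
  have h1 : ta g = 0 := by
    ext i j
    exact hc i j
  have h2 := H899.G.ta_det g
  rw [h1, det_zero] at h2
  exact zero_ne_one h2

end mat

section bpx

variable {k : Type} [NontriviallyNormedField k] {n : Type} [Fintype n] [DecidableEq n]
  {σ : k →+* k} {ε : k} {J : Matrix n n k}

/-- **The sharp attracting point.** -/
def BpX (c : ℝ) (F : Finset (SGr σ J 1)) (bp : FormGroup σ J → SGr σ J 1) : Prop :=
  ∀ g : FormGroup σ J, ∃ X ∈ F, bp g = g • X ∧
    ∀ x ∈ X.S, c * nmM (ta g.1) * ‖x‖ ≤ ‖ta g.1 *ᵥ x‖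

theorem exists_bpx [Nonempty n] (hs : Submodule.span k {x : n → k | hf σ J x x = 0} = ⊤) :
    ∃ (c : ℝ) (F : Finset (SGr σ J 1)) (bp : FormGroup σ J → SGr σ J 1), 0 < c ∧ BpX c F bp := by
  classical
  obtain ⟨I, hI, b, hb⟩ : ∃ (I : Type) (_ : Fintype I) (b : Basis I k (n → k)),
      ∀ i, hf σ J (b i) (b i) = 0 := by
    let b₀ := Basis.ofSpan hs.ge
    exact ⟨_, FiniteDimensional.fintypeBasisIndex b₀, b₀, fun i =>
      Basis.ofSpan_subset hs.ge ⟨_, rfl⟩⟩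
  obtain ⟨c, hc, hbig⟩ := exists_big b
  have h1 : ∀ g : FormGroup σ J, ∃ i, c * nmM (ta g.1) * ‖b i‖ ≤ ‖ta g.1 *ᵥ b i‖ := fun g =>
    hbig _ (ta_ne g.1)
  choose f hf' using h1
  obtain ⟨P, hP⟩ : ∃ P : I → SGr σ J 1, ∀ i, (P i).S = Submodule.span k {b i} :=
    ⟨fun i => pv σ J (b i) (b.ne_zero i) (hb i), fun i => rfl⟩
  refine ⟨c, Finset.univ.image P, fun g => g • P (f g), hc, fun g => ⟨P (f g),
    Finset.mem_image_of_mem _ (Finset.mem_univ _), rfl, fun x hx => ?_⟩⟩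
  rw [hP] at hx
  obtain ⟨t, rfl⟩ := Submodule.mem_span_singleton.1 hx
  rw [mulVec_smul, norm_smul, norm_smul]
  have h2 := mul_le_mul_of_nonneg_left (hf' g) (norm_nonneg t)
  calc c * nmM (ta g.1) * (‖t‖ * ‖b (f g)‖) = ‖t‖ * (c * nmM (ta g.1) * ‖b (f g)‖) := by ring
    _ ≤ _ := h2

variable {c : ℝ} {F : Finset (SGr σ J 1)} {bp : FormGroup σ J → SGr σ J 1}

/-- the vectors of the attracting point -/
theorem BpX.vec (h : BpX c F bp) (g : FormGroup σ J) : ∃ X ∈ F, bp g = g • X ∧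
    ∀ b ∈ (bp g).S, ∃ x ∈ X.S, ta g.1 *ᵥ x = b ∧ c * nmM (ta g.1) * ‖x‖ ≤ ‖b‖ := by
  obtain ⟨X, hX, h1, h2⟩ := h g
  refine ⟨X, hX, h1, fun b hb => ?_⟩
  rw [h1, smul_map] at hb
  obtain ⟨x, hx, rfl⟩ := hb
  exact ⟨x, hx, rfl, h2 x hx⟩

/-- **The true rate.** -/
theorem BpX.sharp (hc : 0 < c) (h : BpX c F bp) (R : ℝ) : ∃ C : ℝ, 0 ≤ C ∧
    ∀ g : FormGroup σ J, NW1 R (ta g.1) → ∀ b ∈ (bp g).S, ∀ (y : n → k) (i j : n),
      ‖b i * (ta g.1 *ᵥ y) j - b j * (ta g.1 *ᵥ y) i‖ ≤ C * (‖b‖ * ‖y‖) := by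
  refine ⟨Fintype.card n ^ 2 * |R| / c, by positivity, fun g hg b hb y i j => ?_⟩
  obtain ⟨X, hX, h1, h2⟩ := h.vec g
  obtain ⟨x, hx, rfl, h3⟩ := h2 b hb
  refine (wedge_le hg x y i j).trans ?_
  rw [div_mul_eq_mul_div, le_div_iff₀ hc]
  have hy := norm_nonneg y
  calc Fintype.card n ^ 2 * (|R| * nmM (ta g.1)) * (‖x‖ * ‖y‖) * c =
      Fintype.card n ^ 2 * |R| * ((c * nmM (ta g.1) * ‖x‖) * ‖y‖) := by ring
    _ ≤ Fintype.card n ^ 2 * |R| * (‖ta g.1 *ᵥ x‖ * ‖y‖) := by gcongr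

/-- **The sharp attracting point is an attracting point.** -/
theorem BpX.isBp (hc : 0 < c) (h : BpX c F bp) : IsBp 1 NW1 bp := by
  intro R δ hδ
  obtain ⟨C, hC, hs⟩ := h.sharp hc R
  refine ⟨(C + 1) / (δ * c), fun g hg hn => ?_⟩
  obtain ⟨X, hX, h1, h2⟩ := h g
  have hnm : 0 < nmM (ta g.1) := lt_of_lt_of_le (by positivity) hn
  obtain ⟨x₀, hx₀, hXs⟩ := exists_vec X
  obtain ⟨b, hb⟩ : ∃ b, b = ta g.1 *ᵥ x₀ := ⟨_, rfl⟩
  have hbm : b ∈ (bp g).S := by
    rw [h1, smul_map, hb]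
    exact ⟨x₀, mem_of_span hXs, rfl⟩
  have hb0 : 0 < ‖b‖ := by
    have h3 := h2 x₀ (mem_of_span hXs)
    rw [← hb] at h3
    exact lt_of_lt_of_le (mul_pos (mul_pos hc hnm) (norm_pos_iff.2 hx₀)) h3
  obtain ⟨p, hp⟩ : ∃ p, ‖b‖ = ‖b p‖ := by
    by_contra hcon
    push Not at hcon
    have h4 : ∀ p, ‖b p‖ < ‖b‖ := fun p => lt_of_le_of_ne (norm_le_pi_norm b p) (hcon p).symm
    exact absurd ((pi_norm_lt_iff hb0).2 h4) (lt_irrefl _)
  have hbp : b p ≠ 0 := by
    rw [← norm_pos_iff, ← hp]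
    exact hb0
  refine ⟨c * nmM (ta g.1), by positivity, ⟨X.S, X.dim, h2⟩,
    fun i j => b i * (ta g.1 p j / b p), fun v => ?_, fun v => ?_⟩
  · have e1 : ((fun i j => b i * (ta g.1 p j / b p) : Matrix n n k) *ᵥ v) =
        ((ta g.1 *ᵥ v) p / b p) • b := by
      funext i
      change ∑ j, b i * (ta g.1 p j / b p) * v j = (∑ j, ta g.1 p j * v j) / b p * b i
      rw [Finset.sum_div, Finset.sum_mul]
      exact Finset.sum_congr rfl fun j _ => by ring
    rw [e1]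
    exact (bp g).S.smul_mem _ hbm
  · have e1 : ((fun i j => b i * (ta g.1 p j / b p) : Matrix n n k) *ᵥ v) =
        ((ta g.1 *ᵥ v) p / b p) • b := by
      funext i
      change ∑ j, b i * (ta g.1 p j / b p) * v j = (∑ j, ta g.1 p j * v j) / b p * b i
      rw [Finset.sum_div, Finset.sum_mul]
      exact Finset.sum_congr rfl fun j _ => by ring
    have h5 : ‖ta g.1 *ᵥ v - (fun i j => b i * (ta g.1 p j / b p) : Matrix n n k) *ᵥ v‖ ≤
        C * ‖v‖ := by
      rw [e1, pi_norm_le_iff_of_nonneg (by positivity)]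
      intro i
      have h6 := hs g hg b hbm v p i
      have e2 : (ta g.1 *ᵥ v - ((ta g.1 *ᵥ v) p / b p) • b) i =
          (b p * (ta g.1 *ᵥ v) i - b i * (ta g.1 *ᵥ v) p) / b p := by
        change (ta g.1 *ᵥ v) i - (ta g.1 *ᵥ v) p / b p * b i = _
        field_simp
      rw [e2, norm_div, ← hp, div_le_iff₀ hb0]
      refine h6.trans (le_of_eq ?_)
      ring
    refine h5.trans (mul_le_mul_of_nonneg_right ?_ (norm_nonneg _))
    rw [div_le_iff₀ (by positivity)] at hn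
    nlinarith

end bpx

section letters

variable {k : Type} [NontriviallyNormedField k] [MeasurableSpace k] {ι : Type} [Fintype ι]
  [DecidableEq ι] {s N : ℕ} {σ : k →+* k} {ε : k} {J₀ : Matrix ι ι k}

/-- **`GauOk` for `CL.lt` with the sharp attracting point.** -/
theorem gauOk_x [ProperSpace k] (hk : LocK k) (hσ : ∀ x, ‖σ x‖ = ‖x‖)
    (e : Idx (s + 2) ι ≃ Fin (N + 1)) (hF : Frm σ ε (hyp (s + 2) ε J₀))
    (hW : WI σ (hyp (s + 2) ε J₀) (s + 2)) {w : k} (hw : w ≠ 0)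
    (hσw : σ w = w) (μ₁ : MeasureTheory.Measure k) (μ₂ : MeasureTheory.Measure (CL.V2 σ ε)) :
    ∃ (c : ℝ) (F : Finset (SGr σ (hyp (s + 2) ε J₀) 1))
      (bp : FormGroup σ (hyp (s + 2) ε J₀) → SGr σ (hyp (s + 2) ε J₀) 1)
      (bm : FormGroup σ (hyp (s + 2) ε J₀) → SGr σ (hyp (s + 2) ε J₀) (s + 2)),
      0 < c ∧ BpX c F bp ∧
        GauOk (lt hF hw hσw μ₁ μ₂) (gau e (s + 2) (MonoidHom.id _) bp bm) := by
  haveI : Nonempty (SGr σ (hyp (s + 2) ε J₀) (s + 2)) := ⟨CL.m0⟩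
  haveI : Nonempty (Idx (s + 2) ι) := ⟨e.symm 0⟩
  obtain ⟨c, F, bp, hc, hbp⟩ := exists_bpx (span_frm hF)
  obtain ⟨bm, hbm⟩ := exists_bpr (J := hyp (s + 2) ε J₀) hk hσ (by omega) hW
  exact ⟨c, F, bp, bm, hc, hbp, gauOk_lt' hk hσ e hF hw hσw μ₁ μ₂ (hbp.isBp hc) hbm⟩

end letters

end Vale.Agent.P092.H632.T2
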