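import Vale.Agent.P092.H515.FormT
import Vale.Agent.P092.H632.T2.Abs

/-!
P092, Team P, stages 2 and 3, row [CL-TGT] (helper632): the gauges against every bounded Cartan
decomposition (`H515.Dec M`).
-/

set_option linter.all false

open Matrix Topology Module Set Filter

namespace Vale.Agent.P092.H632.T2

open Vale.Agent.P092.H899.T (Xp xp_one xp_two)
open Vale.Agent.P092.H337.NG
open Vale.Agent.P092.H515 (Dec)

section dec

variable {k : Type} [NontriviallyNormedField k] {n : ℕ} {M : ℝ}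

theorem norm_mulVec_leM {U : Matrix (Fin n) (Fin n) k} {C : ℝ} (hC : 0 ≤ C)
    (hU : ∀ i j, ‖U i j‖ ≤ C) (v : Fin n → k) : ‖U *ᵥ v‖ ≤ n * C * ‖v‖ := by
  have h1 := norm_mulVec_le U v
  have h2 : en U ≤ C := en_le_of hC hU
  calc ‖U *ᵥ v‖ ≤ n * (en U * ‖v‖) := h1
    _ ≤ n * (C * ‖v‖) := by gcongr
    _ = _ := by ring

theorem dec_apply {h κ κi κ' κi' : Matrix (Fin n) (Fin n) k} {a : Fin n → k}
    (H : Dec M h κ κi κ' κi' a) (v : Fin n → k) :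
    h *ᵥ v = κ *ᵥ fun i => a i * (κ' *ᵥ v) i := by
  rw [H.eq, ← mulVec_mulVec, ← mulVec_mulVec]
  congr 1
  funext i
  rw [mulVec_diagonal]

/-- upper bound -/
theorem xp_le_dec {C : ℝ} (hC : 0 ≤ C) (hM : M ≤ C) {h κ κi κ' κi' : Matrix (Fin n) (Fin n) k}
    {a : Fin n → k} (H : Dec M h κ κi κ' κi' a) {d : ℕ} (hd : d + 1 ≤ n) :
    xp (d + 1) h ≤ (n * C) ^ 2 * ‖a ⟨d, hd⟩‖ := by
  refine xp_le_of hd fun c hc => ?_
  obtain ⟨L, hL, hc⟩ := hc
  obtain ⟨F, hF⟩ : ∃ F : L →ₗ[k] (Fin d → k), ∀ v i, F v i = (κ' *ᵥ v.1) ⟨i, by omega⟩ :=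
    ⟨{ toFun := fun v i => (κ' *ᵥ v.1) ⟨i, by omega⟩
       map_add' := fun v w => by
        funext i
        change (κ' *ᵥ (v.1 + w.1)) _ = _
        rw [mulVec_add]; rfl
       map_smul' := fun t v => by
        funext i
        change (κ' *ᵥ (t • v.1)) _ = _
        rw [mulVec_smul]; rfl }, fun _ _ => rfl⟩
  have hk : LinearMap.ker F ≠ ⊥ := by
    refine LinearMap.ker_ne_bot_of_finrank_lt ?_
    rw [finrank_fin_fun, hL]
    exact Nat.lt_succ_self d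
  obtain ⟨v, hv, hv0⟩ := Submodule.exists_mem_ne_zero_of_ne_bot hk
  have hz : ∀ i : Fin n, (i : ℕ) < d → (κ' *ᵥ v.1) i = 0 := fun i hi => by
    have h1 := congrFun (LinearMap.mem_ker.1 hv) ⟨i, hi⟩
    rw [hF] at h1
    exact h1
  have hv' : 0 < ‖(v : Fin n → k)‖ := norm_pos_iff.2 fun h0 => hv0 (Subtype.ext h0)
  have h1 := hc v.1 v.2
  rw [dec_apply H] at h1
  have h2 := norm_mulVec_leM hC (fun i j => (H.le i j).trans hM) fun i => a i * (κ' *ᵥ v.1) i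
  have h3 : ‖fun i => a i * (κ' *ᵥ v.1) i‖ ≤ ‖a ⟨d, hd⟩‖ * ‖κ' *ᵥ v.1‖ := by
    rw [pi_norm_le_iff_of_nonneg (by positivity)]
    intro i
    by_cases hi : (i : ℕ) < d
    · rw [hz i hi, mul_zero, norm_zero]; positivity
    · rw [norm_mul]
      exact mul_le_mul (H.anti (show (⟨d, hd⟩ : Fin n) ≤ i from by
        rw [Fin.le_def]; simp only; omega)) (norm_le_pi_norm _ i) (norm_nonneg _) (norm_nonneg _)
  have h4 := norm_mulVec_leM hC (fun i j => (H.le' i j).trans hM) v.1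
  have hn0 : (0 : ℝ) ≤ n := Nat.cast_nonneg n
  have h5 : c * ‖(v : Fin n → k)‖ ≤ ((n * C) ^ 2 * ‖a ⟨d, hd⟩‖) * ‖(v : Fin n → k)‖ := by
    calc _ ≤ n * C * ‖fun i => a i * (κ' *ᵥ v.1) i‖ := h1.trans h2
      _ ≤ n * C * (‖a ⟨d, hd⟩‖ * (n * C * ‖(v : Fin n → k)‖)) := by
          refine mul_le_mul_of_nonneg_left (h3.trans ?_) (by positivity)
          exact mul_le_mul_of_nonneg_left h4 (norm_nonneg _)
      _ = _ := by ring
  exact le_of_mul_le_mul_right h5 hv'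

/-- the expanded subspace -/
theorem xp_of_dec {C : ℝ} (hC : 0 < C) (hM : M ≤ C) {h κ κi κ' κi' : Matrix (Fin n) (Fin n) k}
    {a : Fin n → k} (H : Dec M h κ κi κ' κi' a) {d : ℕ} (hd : d + 1 ≤ n) :
    Xp (‖a ⟨d, hd⟩‖ / (n * C) ^ 2) (d + 1) h := by
  have hn0 : (0 : ℝ) < n := by exact_mod_cast (by omega : 0 < n)
  have hκ : κi * κ = 1 := mul_eq_one_comm.1 H.mul
  have hκ' : κi' * κ' = 1 := mul_eq_one_comm.1 H.mul'
  obtain ⟨L, hL, hm⟩ := exists_cols hκ' hd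
  refine ⟨L, hL, fun v hv => ?_⟩
  have hz := (hm v).1 hv
  have h1 : ‖a ⟨d, hd⟩‖ * ‖κ' *ᵥ v‖ ≤ ‖fun i => a i * (κ' *ᵥ v) i‖ := by
    rcases (norm_nonneg (a ⟨d, hd⟩)).eq_or_lt with h0 | h0
    · rw [← h0, zero_mul]; exact norm_nonneg _
    rw [← le_div_iff₀' h0, pi_norm_le_iff_of_nonneg (by positivity)]
    intro i
    rw [le_div_iff₀' h0]
    by_cases hi : (i : ℕ) < d + 1
    · calc ‖a ⟨d, hd⟩‖ * ‖(κ' *ᵥ v) i‖ ≤ ‖a i‖ * ‖(κ' *ᵥ v) i‖ := by
            refine mul_le_mul_of_nonneg_right ?_ (norm_nonneg _)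
            exact H.anti (show i ≤ (⟨d, hd⟩ : Fin n) from by rw [Fin.le_def]; simp only; omega)
        _ = ‖a i * (κ' *ᵥ v) i‖ := (norm_mul _ _).symm
        _ ≤ _ := norm_le_pi_norm (fun i => a i * (κ' *ᵥ v) i) i
    · rw [hz i (by omega), norm_zero, mul_zero]; exact norm_nonneg _
  have h2 : ‖fun i => a i * (κ' *ᵥ v) i‖ ≤ n * C * ‖h *ᵥ v‖ := by
    have e : (fun i => a i * (κ' *ᵥ v) i) = κi *ᵥ (h *ᵥ v) := by
      rw [dec_apply H, mulVec_mulVec, hκ, one_mulVec]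
    rw [e]
    exact norm_mulVec_leM hC.le (fun i j => (H.lei i j).trans hM) _
  have h3 : ‖v‖ ≤ n * C * ‖κ' *ᵥ v‖ := by
    have e : v = κi' *ᵥ (κ' *ᵥ v) := by rw [mulVec_mulVec, hκ', one_mulVec]
    calc ‖v‖ = ‖κi' *ᵥ (κ' *ᵥ v)‖ := by rw [← e]
      _ ≤ _ := norm_mulVec_leM hC.le (fun i j => (H.lei' i j).trans hM) _
  rw [div_mul_eq_mul_div, div_le_iff₀ (by positivity)]
  calc ‖a ⟨d, hd⟩‖ * ‖v‖ ≤ ‖a ⟨d, hd⟩‖ * (n * C * ‖κ' *ᵥ v‖) :=
        mul_le_mul_of_nonneg_left h3 (norm_nonneg _)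
    _ = n * C * (‖a ⟨d, hd⟩‖ * ‖κ' *ᵥ v‖) := by ring
    _ ≤ n * C * (n * C * ‖h *ᵥ v‖) := mul_le_mul_of_nonneg_left (h1.trans h2) (by positivity)
    _ = _ := by ring

/-- **Comparison of all the gauges with every bounded Cartan decomposition.** -/
theorem gauge_dec (hn : 2 ≤ n) (M : ℝ) : ∃ K : ℝ, 0 ≤ K ∧
    ∀ (z : SLn k n) (κ κi κ' κi' : Matrix (Fin n) (Fin n) k) (a : Fin n → k),
      Dec M z.1 κ κi κ' κi' a →
      |Real.log (en z.1) - Real.log ‖a ⟨0, by omega⟩‖| ≤ K ∧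
      |Real.log (m2 z.1) - (Real.log ‖a ⟨0, by omega⟩‖ + Real.log ‖a ⟨1, by omega⟩‖)| ≤ K ∧
      ∀ (d : ℕ) (hd : d + 1 ≤ n), |Real.log (xp (d + 1) z.1) - Real.log ‖a ⟨d, hd⟩‖| ≤ K := by
  have : NeZero n := ⟨by omega⟩
  obtain ⟨C, hC⟩ : ∃ C, C = max M 1 := ⟨_, rfl⟩
  have hC1 : 1 ≤ C := hC ▸ le_max_right _ _
  have hCM : M ≤ C := hC ▸ le_max_left _ _
  have hCp : 0 < C := zero_lt_one.trans_le hC1
  have hn1 : (1 : ℝ) ≤ n := by exact_mod_cast (by omega : 1 ≤ n)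
  have hn0 : (0 : ℝ) < n := by linarith
  obtain ⟨l, hl⟩ : ∃ l, l = Real.log (n * C) := ⟨_, rfl⟩
  have hl0 : 0 ≤ l := by
    rw [hl]
    exact Real.log_nonneg (by nlinarith)
  have hnl : Real.log n ≤ l := by
    rw [hl]
    exact Real.log_le_log hn0 (by nlinarith)
  have hn_0 : 0 ≤ Real.log n := Real.log_nonneg hn1
  obtain ⟨c4, hc4⟩ : ∃ c4 : ℝ, c4 = n ^ 2 * (n ^ 2 * (2 * C ^ 2) * (2 * C ^ 2)) := ⟨_, rfl⟩
  have hc4p : 0 < c4 := by rw [hc4]; positivity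
  have h40 : (0 : ℝ) ≤ Real.log 4 := Real.log_nonneg (by norm_num)
  refine ⟨|Real.log c4| + (6 * l + Real.log 4), by positivity,
    fun z κ κi κ' κi' a H => ?_⟩
  have hκ : κi * κ = 1 := mul_eq_one_comm.1 H.mul
  have hκ' : κi' * κ' = 1 := mul_eq_one_comm.1 H.mul'
  have hx : ∀ (d : ℕ) (hd : d + 1 ≤ n),
      |Real.log (xp (d + 1) z.1) - Real.log ‖a ⟨d, hd⟩‖| ≤ 2 * l := by
    intro d hd
    have ha : 0 < ‖a ⟨d, hd⟩‖ := norm_pos_iff.2 (H.ne _)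
    have h1 := xp_le_dec hCp.le hCM H hd
    have h2 := le_xp (by omega) (xp_of_dec hCp hCM H hd)
    have hp : 0 < xp (d + 1) z.1 := lt_of_lt_of_le (by positivity) h2
    have h3 := Real.log_le_log hp h1
    have h4 := Real.log_le_log (by positivity) h2
    rw [Real.log_mul (by positivity) ha.ne', Real.log_pow, ← hl] at h3
    rw [Real.log_div ha.ne' (by positivity), Real.log_pow, ← hl] at h4
    push_cast at h3 h4
    rw [abs_le]
    constructor <;> linarith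
  have pe := en_pos (by omega) z
  have pm := m2_pos hn z
  have hc0 := abs_nonneg (Real.log c4)
  have hc1 := le_abs_self (Real.log c4)
  have e0 := hx 0 (by omega)
  have e1 := hx 1 (by omega)
  rw [abs_le] at e0 e1
  have x1 : en z.1 ≤ xp 1 z.1 := le_xp le_rfl (xp_one z)
  have x1' : xp 1 z.1 ≤ n * en z.1 := xp_le le_rfl (by omega) z.1
  have l1 := Real.log_le_log pe x1
  have l1' := Real.log_le_log (pe.trans_le x1) x1'
  rw [Real.log_mul hn0.ne' pe.ne'] at l1'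
  have x2 : m2 z.1 / (4 * en z.1) ≤ xp 2 z.1 := le_xp (by omega) (xp_two hn z)
  have l2 := Real.log_le_log (by positivity) x2
  rw [Real.log_div pm.ne' (by positivity), Real.log_mul (by norm_num) pe.ne'] at l2
  have pa0 : 0 < ‖a ⟨0, by omega⟩‖ := norm_pos_iff.2 (H.ne _)
  have pa1 : 0 < ‖a ⟨1, by omega⟩‖ := norm_pos_iff.2 (H.ne _)
  have x3 : ‖a ⟨0, by omega⟩‖ * ‖a ⟨1, by omega⟩‖ ≤ c4 * m2 z.1 := by
    have ed : diagonal a = κi * z.1 * κi' := by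
      rw [H.eq]
      calc diagonal a = (κi * κ) * diagonal a * (κ' * κi') := by
            rw [hκ, H.mul', Matrix.one_mul, Matrix.mul_one]
        _ = _ := by simp only [Matrix.mul_assoc]
    have h01 : (⟨0, by omega⟩ : Fin n) ≠ ⟨1, by omega⟩ := fun e => by
      have := Fin.mk.inj e
      omega
    have f1 := mi_le (diagonal a) ⟨0, by omega⟩ ⟨1, by omega⟩ ⟨0, by omega⟩ ⟨1, by omega⟩
    have f2 : mi (diagonal a) ⟨0, by omega⟩ ⟨1, by omega⟩ ⟨0, by omega⟩ ⟨1, by omega⟩ =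
        a ⟨0, by omega⟩ * a ⟨1, by omega⟩ := by
      unfold mi
      rw [diagonal_apply_eq, diagonal_apply_eq, diagonal_apply_ne _ h01, mul_zero, sub_zero]
    rw [f2, norm_mul, ed] at f1
    have g1 : en κi ≤ C := en_le_of hCp.le fun i j => (H.lei i j).trans hCM
    have g2 : en κi' ≤ C := en_le_of hCp.le fun i j => (H.lei' i j).trans hCM
    have g3 := en_nonneg κi
    have g4 := en_nonneg κi'
    have m1 : m2 κi ≤ 2 * C ^ 2 := (m2_le κi).trans (by nlinarith)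
    have m1' : m2 κi' ≤ 2 * C ^ 2 := (m2_le κi').trans (by nlinarith)
    have m2a := m2_mul (κi * z.1) κi'
    have m2b := m2_mul κi z.1
    have m0 := m2_nonneg κi
    have m0' := m2_nonneg κi'
    have m3 : (0 : ℝ) ≤ n ^ 2 := by positivity
    calc _ ≤ _ := f1
      _ ≤ n ^ 2 * (m2 (κi * z.1) * m2 κi') := m2a
      _ ≤ n ^ 2 * ((n ^ 2 * (2 * C ^ 2 * m2 z.1)) * (2 * C ^ 2)) := by
          refine mul_le_mul_of_nonneg_left (mul_le_mul (m2b.trans ?_) m1' m0' (by positivity)) m3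
          exact mul_le_mul_of_nonneg_left (mul_le_mul_of_nonneg_right m1 pm.le) m3
      _ = _ := by rw [hc4]; ring
  have l3 := Real.log_le_log (by positivity) x3
  rw [Real.log_mul pa0.ne' pa1.ne', Real.log_mul hc4p.ne' pm.ne'] at l3
  obtain ⟨e01, e02⟩ := e0
  obtain ⟨e11, e12⟩ := e1
  have y1 : Real.log (xp (0 + 1) z.1) = Real.log (xp 1 z.1) := rfl
  have y2 : Real.log (xp (1 + 1) z.1) = Real.log (xp 2 z.1) := rfl
  rw [y1] at e01 e02
  rw [y2] at e11 e12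
  refine ⟨?_, ?_, fun d hd => (hx d hd).trans (by linarith)⟩
  · rw [abs_le]
    constructor <;> linarith
  · rw [abs_le]
    constructor <;> linarith

end dec

end Vale.Agent.P092.H632.T2
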