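import Vale.Agent.P092.H632.T2.Let

/-!
P092, Team P, stages 2 and 3, row [CL-LET] (helper632), part 2: the fields of the record which
concern the size, uniform discreteness, homomorphisms modulo scalars.
-/

set_option linter.all false

open Matrix Topology Module Set Filter

namespace Vale.Agent.P092.H632.T2

open Vale.Agent.P092.H303 (FormGroup isClosedEmbedding_val isClosed_formGroup)
open Vale.Agent.P092.H416.CL (Je rho)
open Vale.Agent.P092.H337.NG

section nm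

variable {n : Type} [Fintype n] [DecidableEq n] {k : Type} [NontriviallyNormedField k] {N : ℕ}
  {σ : k →+* k} {J : Matrix n n k}

theorem nmC_pos (e : n ≃ Fin (N + 1)) (g : FormGroup σ J) : 0 < nmC e g :=
  en_pos (by omega) (rho e σ J g)

theorem nmC_mul (e : n ≃ Fin (N + 1)) (g h : FormGroup σ J) :
    nmC e (g * h) ≤ ((N + 1 : ℕ) : ℝ) * (nmC e g * nmC e h) := by
  unfold nmC
  rw [map_mul]
  exact en_mul (rho e σ J g).1 (rho e σ J h).1

theorem nmC_mul' (e : n ≃ Fin (N + 1)) :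
    ∃ C : ℝ, 0 < C ∧ ∀ g h : FormGroup σ J, nmC e (g * h) ≤ C * (nmC e g * nmC e h) :=
  ⟨((N + 1 : ℕ) : ℝ), by positivity, nmC_mul e⟩

theorem nmC_le_iff (e : n ≃ Fin (N + 1)) {C : ℝ} (hC : 0 ≤ C) (g : FormGroup σ J) :
    nmC e g ≤ C ↔ ∀ i j, ‖(g.1⁻¹).1 i j‖ ≤ C := by
  constructor
  · intro h i j
    have h1 := entry_le (rho e σ J g).1 (e j) (e i)
    have h2 : (rho e σ J g).1 (e j) (e i) = (g.1⁻¹).1 i j := by
      change (g.1⁻¹).1 (e.symm (e i)) (e.symm (e j)) = _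
      rw [e.symm_apply_apply, e.symm_apply_apply]
    rw [h2] at h1
    exact h1.trans h
  · intro h
    refine en_le_of hC fun i j => ?_
    exact h (e.symm j) (e.symm i)

/-- the size does not depend on the order of the coordinates -/
theorem nmC_eq (e e' : n ≃ Fin (N + 1)) (g : FormGroup σ J) : nmC e g = nmC e' g := by
  refine le_antisymm ?_ ?_
  · rw [nmC_le_iff e (nmC_pos e' g).le, ← nmC_le_iff e' (nmC_pos e' g).le]
  · rw [nmC_le_iff e' (nmC_pos e g).le, ← nmC_le_iff e (nmC_pos e g).le]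

theorem inv_rel {J' : Matrix n n k} (hJ : J * J' = 1) (g : FormGroup σ J) :
    g.1.1 = J * ((g.1⁻¹).1.map σ)ᵀ * J' := by
  have h1 : (g.1⁻¹).1 * J * ((g.1⁻¹).1.map σ)ᵀ = J := (inv_mem g.2 : g.1⁻¹ ∈ FormGroup σ J)
  have h2 : g.1.1 * (g.1⁻¹).1 = 1 := congrArg Subtype.val (mul_inv_cancel g.1)
  calc g.1.1 = g.1.1 * (J * J') := by rw [hJ, Matrix.mul_one]
    _ = g.1.1 * (((g.1⁻¹).1 * J * ((g.1⁻¹).1.map σ)ᵀ) * J') := by rw [h1]
    _ = (g.1.1 * (g.1⁻¹).1) * (J * ((g.1⁻¹).1.map σ)ᵀ * J') := by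
        simp only [Matrix.mul_assoc]
    _ = _ := by rw [h2, Matrix.one_mul]

/-- a bound for a product of three matrices -/
theorem entry_mul3 {A B C : Matrix n n k} {a b c : ℝ} (ha : 0 ≤ a) (hb : 0 ≤ b) (hc : 0 ≤ c)
    (hA : ∀ i j, ‖A i j‖ ≤ a) (hB : ∀ i j, ‖B i j‖ ≤ b) (hC : ∀ i j, ‖C i j‖ ≤ c) (i j : n) :
    ‖(A * B * C) i j‖ ≤ Fintype.card n ^ 2 * (a * b * c) := by
  have h1 : ∀ i l, ‖(A * B) i l‖ ≤ Fintype.card n * (a * b) := fun i l => by
    rw [Matrix.mul_apply]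
    calc _ ≤ ∑ _m : n, a * b := by
          refine norm_sum_le_of_le _ fun m _ => ?_
          rw [norm_mul]
          exact mul_le_mul (hA _ _) (hB _ _) (norm_nonneg _) ha
      _ = _ := by simp
  rw [Matrix.mul_apply]
  calc _ ≤ ∑ _m : n, Fintype.card n * (a * b) * c := by
        refine norm_sum_le_of_le _ fun m _ => ?_
        rw [norm_mul]
        exact mul_le_mul (h1 _ _) (hC _ _) (norm_nonneg _) (by positivity)
    _ = _ := by simp; ring

theorem nmC_inv (e : n ≃ Fin (N + 1)) (hσ : ∀ x, ‖σ x‖ = ‖x‖) {J' : Matrix n n k}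
    (hJ : J * J' = 1) :
    ∃ C : ℝ, 0 < C ∧ ∀ g : FormGroup σ J, nmC e g⁻¹ ≤ C * nmC e g := by
  obtain ⟨b, hb0, hb, hb'⟩ : ∃ b : ℝ, 0 < b ∧ (∀ i j, ‖J i j‖ ≤ b) ∧ ∀ i j, ‖J' i j‖ ≤ b := by
    refine ⟨1 + ∑ i, ∑ j, ‖J i j‖ + ∑ i, ∑ j, ‖J' i j‖, by positivity, fun i j => ?_,
      fun i j => ?_⟩
    · have h1 : ‖J i j‖ ≤ ∑ j, ‖J i j‖ :=
        Finset.single_le_sum (f := fun j => ‖J i j‖) (fun j _ => norm_nonneg _)
          (Finset.mem_univ j)
      have h2 : ∑ j, ‖J i j‖ ≤ ∑ i, ∑ j, ‖J i j‖ :=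
        Finset.single_le_sum (f := fun i => ∑ j, ‖J i j‖)
          (fun i _ => Finset.sum_nonneg fun j _ => norm_nonneg _) (Finset.mem_univ i)
      have h3 : 0 ≤ ∑ i, ∑ j, ‖J' i j‖ := by positivity
      linarith
    · have h1 : ‖J' i j‖ ≤ ∑ j, ‖J' i j‖ :=
        Finset.single_le_sum (f := fun j => ‖J' i j‖) (fun j _ => norm_nonneg _)
          (Finset.mem_univ j)
      have h2 : ∑ j, ‖J' i j‖ ≤ ∑ i, ∑ j, ‖J' i j‖ :=
        Finset.single_le_sum (f := fun i => ∑ j, ‖J' i j‖)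
          (fun i _ => Finset.sum_nonneg fun j _ => norm_nonneg _) (Finset.mem_univ i)
      have h3 : 0 ≤ ∑ i, ∑ j, ‖J i j‖ := by positivity
      linarith
  refine ⟨Fintype.card n ^ 2 * (b * b) + 1, by positivity, fun g => ?_⟩
  have hp := nmC_pos e g
  have h0 := (nmC_le_iff e hp.le g).1 le_rfl
  rw [nmC_le_iff e (by positivity)]
  intro i j
  have e1 : ((g⁻¹).1⁻¹).1 = g.1.1 := by
    change ((g.1⁻¹)⁻¹).1 = g.1.1
    rw [inv_inv]
  rw [e1, inv_rel hJ g]
  have h1 := entry_mul3 (A := J) (B := ((g.1⁻¹).1.map σ)ᵀ) (C := J') hb0.le hp.le hb0.le hb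
    (fun i j => by
      rw [transpose_apply, map_apply, hσ]
      exact h0 j i) hb' i j
  refine h1.trans ?_
  calc (Fintype.card n : ℝ) ^ 2 * (b * nmC e g * b) =
      (Fintype.card n ^ 2 * (b * b)) * nmC e g := by ring
    _ ≤ _ := mul_le_mul_of_nonneg_right (by linarith) hp.le

theorem nmC_cont (e : n ≃ Fin (N + 1)) : Continuous (nmC e : FormGroup σ J → ℝ) := by
  have h1 : Continuous fun g : FormGroup σ J => (g.1⁻¹).1 :=
    continuous_subtype_val.comp
      ((continuous_inv (G := SpecialLinearGroup n k)).comp continuous_subtype_val)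
  unfold nmC en
  refine Continuous.norm (continuous_pi fun i => continuous_pi fun j => ?_)
  exact h1.matrix_elem (e.symm j) (e.symm i)

theorem nmC_cpt [ProperSpace k] (hσ : Continuous σ) (e : n ≃ Fin (N + 1)) (C : ℝ) :
    IsCompact {g : FormGroup σ J | nmC e g ≤ C} := by
  rcases lt_or_ge C 0 with hC | hC
  · have : {g : FormGroup σ J | nmC e g ≤ C} = ∅ := by
      ext g
      simp only [mem_setOf_eq, mem_empty_iff_false, iff_false, not_le]
      exact hC.trans (nmC_pos e g)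
    rw [this]
    exact isCompact_empty
  have hK : IsCompact {M : Matrix n n k | ∀ i j, ‖M i j‖ ≤ C} := by
    have e1 : {M : Matrix n n k | ∀ i j, ‖M i j‖ ≤ C} =
        (Set.univ.pi fun _ : n => Set.univ.pi fun _ : n => Metric.closedBall (0 : k) C) := by
      ext M
      constructor
      · intro h i _ j _
        exact mem_closedBall_zero_iff.2 (h i j)
      · intro h i j
        exact mem_closedBall_zero_iff.1 (h i (Set.mem_univ i) j (Set.mem_univ j))
    rw [e1]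
    exact isCompact_univ_pi fun _ => isCompact_univ_pi fun _ => isCompact_closedBall _ _
  have hemb : IsClosedEmbedding fun g : FormGroup σ J => (g.1⁻¹).1 :=
    isClosedEmbedding_val.comp ((Homeomorph.inv (SpecialLinearGroup n k)).isClosedEmbedding.comp
      (isClosed_formGroup hσ J).isClosedEmbedding_subtypeVal)
  have h2 := hemb.isCompact_preimage hK
  have e2 : {g : FormGroup σ J | nmC e g ≤ C} =
      (fun g : FormGroup σ J => (g.1⁻¹).1) ⁻¹' {M : Matrix n n k | ∀ i j, ‖M i j‖ ≤ C} := by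
    ext g
    exact nmC_le_iff e hC g
  rw [e2]
  exact h2

end nm

section ph

variable {n : Type} [Fintype n] [DecidableEq n] {k : Type} [NontriviallyNormedField k] {N : ℕ}
  {σ : k →+* k} {J : Matrix n n k} {Γ : Type} [Group Γ] {q : Γ → FormGroup σ J}

/-- homomorphisms modulo scalars -/
def PHC (q : Γ → FormGroup σ J) : Prop :=
  ∀ γ γ', ∃ z ∈ ZC σ J, q (γ * γ') = z * (q γ * q γ')

theorem PHC.phom (hq : PHC q) (e : n ≃ Fin (N + 1)) : PHom fun γ => rho e σ J (q γ) := by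
  intro x y
  obtain ⟨z, hz, h⟩ := hq x y
  have h1 := eqv_of_z e hz (q x * q y)
  rw [← h, map_mul] at h1
  exact h1

/-- **Uniform discreteness.** -/
theorem udC (hq : PHC q) (e : n ≃ Fin (N + 1)) (fin : ∀ C : ℝ, {γ | nmC e (q γ) ≤ C}.Finite) :
    ∀ C : ℝ, ∃ M : ℕ, ∀ T : Finset Γ, (∀ γ ∈ T, ∀ γ' ∈ T, nmC e (q γ' * (q γ)⁻¹) ≤ C) →
      T.card ≤ M := by
  intro C
  refine ⟨(fin C).toFinset.card, fun T hT => ?_⟩
  rcases T.eq_empty_or_nonempty with h0 | ⟨γ₀, h0⟩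
  · rw [h0, Finset.card_empty]
    exact Nat.zero_le _
  refine Finset.card_le_card_of_injOn (fun γ => γ * γ₀⁻¹) (fun γ hγ => ?_)
    fun a _ b _ hab => mul_right_cancel hab
  refine Finset.mem_coe.2 ((Set.Finite.mem_toFinset _).2 ?_)
  change nmC e (q (γ * γ₀⁻¹)) ≤ C
  have h1 := hT γ₀ h0 γ hγ
  have h2 := (hq.phom e).mul_inv γ γ₀
  have h3 : nmC e (q (γ * γ₀⁻¹)) = nmC e (q γ * (q γ₀)⁻¹) := by
    unfold nmC
    rw [map_mul, map_inv]
    exact h2.en_eq
  rw [h3]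
  exact h1

end ph

end Vale.Agent.P092.H632.T2
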